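import Mathlib

/-!
# A finite sampling lemma (Chernoff bound with finite sums only)

`Ω` is a finite set with weights `g ≥ 0`, `∑ g = 1`.  For a finite family of functions
`Y a : Ω → [0, R]` with `∑ g * Y a = 1`, a sample `s : Fin m → Ω` exists on which every
empirical sum `∑ k, Y a (s k)` lies strictly between `(1 - δ) * m` and `(1 + δ) * m`,
as soon as `2 * card A * exp (-(m * (δ ^ 2 / (4 * R)))) < 1`.
-/

namespace Vale.Agent.Lib.P249.Greedy.Chernoff

open Finset

theorem exp_upper {x : ℝ} (hx : |x| ≤ 1) : Real.exp x ≤ 1 + x + x ^ 2 := by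
  have h := Real.abs_exp_sub_one_sub_id_le hx
  have h2 := (abs_le.mp h).2
  linarith

/-- the moment generating function bound for the upper tail -/
theorem mgf_upper {Ω : Type*} [Fintype Ω] (g : Ω → ℝ) (hg : ∀ ω, 0 ≤ g ω)
    (hg1 : ∑ ω, g ω = 1) (R : ℝ) (hR : 0 < R) (Y : Ω → ℝ) (hY0 : ∀ ω, 0 ≤ Y ω)
    (hYR : ∀ ω, Y ω ≤ R) (hY1 : ∑ ω, g ω * Y ω = 1) (δ : ℝ) (hδ0 : 0 < δ) (hδ1 : δ ≤ 1) :
    ∑ ω, g ω * Real.exp (δ / (2 * R) * (Y ω - (1 + δ))) ≤ Real.exp (-(δ ^ 2 / (4 * R))) := by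
  set lam : ℝ := δ / (2 * R) with hlam
  have hlam0 : 0 < lam := by positivity
  have hlamR : lam * R = δ / 2 := by
    rw [hlam]; field_simp
  have hpt : ∀ ω, g ω * Real.exp (lam * (Y ω - (1 + δ))) ≤
      Real.exp (-(lam * (1 + δ))) * (g ω * (1 + lam * Y ω + lam ^ 2 * R * Y ω)) := by
    intro ω
    have h1 : lam * (Y ω - (1 + δ)) = -(lam * (1 + δ)) + lam * Y ω := by ring
    rw [h1, Real.exp_add]
    have h2 : 0 ≤ lam * Y ω := mul_nonneg hlam0.le (hY0 ω)
    have h3 : lam * Y ω ≤ 1 := by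
      have : lam * Y ω ≤ lam * R := mul_le_mul_of_nonneg_left (hYR ω) hlam0.le
      linarith
    have h4 : Real.exp (lam * Y ω) ≤ 1 + lam * Y ω + (lam * Y ω) ^ 2 :=
      exp_upper (by rw [abs_of_nonneg h2]; exact h3)
    have h5 : (lam * Y ω) ^ 2 ≤ lam ^ 2 * R * Y ω := by
      have : Y ω * Y ω ≤ R * Y ω := mul_le_mul_of_nonneg_right (hYR ω) (hY0 ω)
      have h6 : (lam * Y ω) ^ 2 = lam ^ 2 * (Y ω * Y ω) := by ring
      have h7 : lam ^ 2 * R * Y ω = lam ^ 2 * (R * Y ω) := by ring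
      rw [h6, h7]
      exact mul_le_mul_of_nonneg_left this (by positivity)
    have h8 : Real.exp (lam * Y ω) ≤ 1 + lam * Y ω + lam ^ 2 * R * Y ω := by linarith
    have h9 : g ω * (Real.exp (-(lam * (1 + δ))) * Real.exp (lam * Y ω)) =
        Real.exp (-(lam * (1 + δ))) * (g ω * Real.exp (lam * Y ω)) := by ring
    rw [h9]
    exact mul_le_mul_of_nonneg_left (mul_le_mul_of_nonneg_left h8 (hg ω)) (Real.exp_pos _).le
  have hsum : ∑ ω, g ω * (1 + lam * Y ω + lam ^ 2 * R * Y ω) = 1 + lam + lam ^ 2 * R := by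
    have : ∀ ω, g ω * (1 + lam * Y ω + lam ^ 2 * R * Y ω) =
        g ω + lam * (g ω * Y ω) + lam ^ 2 * R * (g ω * Y ω) := by intro ω; ring
    simp_rw [this]
    rw [Finset.sum_add_distrib, Finset.sum_add_distrib, ← Finset.mul_sum, ← Finset.mul_sum,
      hg1, hY1]
    ring
  calc ∑ ω, g ω * Real.exp (lam * (Y ω - (1 + δ)))
      ≤ ∑ ω, Real.exp (-(lam * (1 + δ))) * (g ω * (1 + lam * Y ω + lam ^ 2 * R * Y ω)) :=
        Finset.sum_le_sum (fun ω _ => hpt ω)
    _ = Real.exp (-(lam * (1 + δ))) * (1 + lam + lam ^ 2 * R) := by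
        rw [← Finset.mul_sum, hsum]
    _ ≤ Real.exp (-(lam * (1 + δ))) * Real.exp (lam + lam ^ 2 * R) := by
        apply mul_le_mul_of_nonneg_left _ (Real.exp_pos _).le
        have := Real.add_one_le_exp (lam + lam ^ 2 * R)
        linarith
    _ = Real.exp (-(δ ^ 2 / (4 * R))) := by
        rw [← Real.exp_add]
        congr 1
        have : lam ^ 2 * R = lam * (lam * R) := by ring
        rw [this, hlamR, hlam]
        field_simp
        ring

/-- the moment generating function bound for the lower tail -/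
theorem mgf_lower {Ω : Type*} [Fintype Ω] (g : Ω → ℝ) (hg : ∀ ω, 0 ≤ g ω)
    (hg1 : ∑ ω, g ω = 1) (R : ℝ) (hR : 0 < R) (Y : Ω → ℝ) (hY0 : ∀ ω, 0 ≤ Y ω)
    (hYR : ∀ ω, Y ω ≤ R) (hY1 : ∑ ω, g ω * Y ω = 1) (δ : ℝ) (hδ0 : 0 < δ) (hδ1 : δ ≤ 1) :
    ∑ ω, g ω * Real.exp (δ / (2 * R) * ((1 - δ) - Y ω)) ≤ Real.exp (-(δ ^ 2 / (4 * R))) := by
  set lam : ℝ := δ / (2 * R) with hlam
  have hlam0 : 0 < lam := by positivity
  have hlamR : lam * R = δ / 2 := by
    rw [hlam]; field_simp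
  have hpt : ∀ ω, g ω * Real.exp (lam * ((1 - δ) - Y ω)) ≤
      Real.exp (lam * (1 - δ)) * (g ω * (1 - lam * Y ω + lam ^ 2 * R * Y ω)) := by
    intro ω
    have h1 : lam * ((1 - δ) - Y ω) = lam * (1 - δ) + -(lam * Y ω) := by ring
    rw [h1, Real.exp_add]
    have h2 : 0 ≤ lam * Y ω := mul_nonneg hlam0.le (hY0 ω)
    have h3 : lam * Y ω ≤ 1 := by
      have : lam * Y ω ≤ lam * R := mul_le_mul_of_nonneg_left (hYR ω) hlam0.le
      linarith
    have h4 : Real.exp (-(lam * Y ω)) ≤ 1 + -(lam * Y ω) + (-(lam * Y ω)) ^ 2 :=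
      exp_upper (by rw [abs_neg, abs_of_nonneg h2]; exact h3)
    have h5 : (lam * Y ω) ^ 2 ≤ lam ^ 2 * R * Y ω := by
      have : Y ω * Y ω ≤ R * Y ω := mul_le_mul_of_nonneg_right (hYR ω) (hY0 ω)
      have h6 : (lam * Y ω) ^ 2 = lam ^ 2 * (Y ω * Y ω) := by ring
      have h7 : lam ^ 2 * R * Y ω = lam ^ 2 * (R * Y ω) := by ring
      rw [h6, h7]
      exact mul_le_mul_of_nonneg_left this (by positivity)
    have h8 : Real.exp (-(lam * Y ω)) ≤ 1 - lam * Y ω + lam ^ 2 * R * Y ω := by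
      have : (-(lam * Y ω)) ^ 2 = (lam * Y ω) ^ 2 := by ring
      linarith
    have h9 : g ω * (Real.exp (lam * (1 - δ)) * Real.exp (-(lam * Y ω))) =
        Real.exp (lam * (1 - δ)) * (g ω * Real.exp (-(lam * Y ω))) := by ring
    rw [h9]
    exact mul_le_mul_of_nonneg_left (mul_le_mul_of_nonneg_left h8 (hg ω)) (Real.exp_pos _).le
  have hsum : ∑ ω, g ω * (1 - lam * Y ω + lam ^ 2 * R * Y ω) = 1 - lam + lam ^ 2 * R := by
    have : ∀ ω, g ω * (1 - lam * Y ω + lam ^ 2 * R * Y ω) =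
        g ω - lam * (g ω * Y ω) + lam ^ 2 * R * (g ω * Y ω) := by intro ω; ring
    simp_rw [this]
    rw [Finset.sum_add_distrib, Finset.sum_sub_distrib, ← Finset.mul_sum, ← Finset.mul_sum,
      hg1, hY1]
    ring
  calc ∑ ω, g ω * Real.exp (lam * ((1 - δ) - Y ω))
      ≤ ∑ ω, Real.exp (lam * (1 - δ)) * (g ω * (1 - lam * Y ω + lam ^ 2 * R * Y ω)) :=
        Finset.sum_le_sum (fun ω _ => hpt ω)
    _ = Real.exp (lam * (1 - δ)) * (1 - lam + lam ^ 2 * R) := by
        rw [← Finset.mul_sum, hsum]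
    _ ≤ Real.exp (lam * (1 - δ)) * Real.exp (-lam + lam ^ 2 * R) := by
        apply mul_le_mul_of_nonneg_left _ (Real.exp_pos _).le
        have := Real.add_one_le_exp (-lam + lam ^ 2 * R)
        linarith
    _ = Real.exp (-(δ ^ 2 / (4 * R))) := by
        rw [← Real.exp_add]
        congr 1
        have : lam ^ 2 * R = lam * (lam * R) := by ring
        rw [this, hlamR, hlam]
        field_simp
        ring

/-- product weights: the expectation of a product functional factorises -/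
theorem sum_prod_weights {Ω : Type*} [Fintype Ω] [DecidableEq Ω] (m : ℕ) (F : Ω → ℝ) :
    ∑ s : Fin m → Ω, ∏ k, F (s k) = (∑ ω, F ω) ^ m := by
  have := Fintype.prod_sum (ι := Fin m) (κ := fun _ => Ω) (fun _ ω => F ω)
  rw [← this]
  simp

/-- **Sampling lemma.** -/
theorem sampling {Ω A : Type*} [Fintype Ω] [Fintype A]
    (g : Ω → ℝ) (hg : ∀ ω, 0 ≤ g ω) (hg1 : ∑ ω, g ω = 1)
    (R : ℝ) (hR : 0 < R)
    (Y : A → Ω → ℝ) (hY0 : ∀ a ω, 0 ≤ Y a ω) (hYR : ∀ a ω, Y a ω ≤ R)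
    (hY1 : ∀ a, ∑ ω, g ω * Y a ω = 1)
    (δ : ℝ) (hδ0 : 0 < δ) (hδ1 : δ ≤ 1) (m : ℕ)
    (hm : 2 * (Fintype.card A : ℝ) * Real.exp (-(m * (δ ^ 2 / (4 * R)))) < 1) :
    ∃ s : Fin m → Ω, (∀ k, 0 < g (s k)) ∧
      ∀ a, (1 - δ) * m < ∑ k, Y a (s k) ∧ ∑ k, Y a (s k) < (1 + δ) * m := by
  classical
  set lam : ℝ := δ / (2 * R) with hlam
  have hlam0 : 0 < lam := by positivity
  set W : (Fin m → Ω) → ℝ := fun s => ∏ k, g (s k) with hW
  have hW0 : ∀ s, 0 ≤ W s := fun s => Finset.prod_nonneg (fun k _ => hg (s k))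
  have hW1 : ∑ s, W s = 1 := by
    rw [hW]
    rw [sum_prod_weights m g, hg1, one_pow]
  set E : ℝ := Real.exp (-(δ ^ 2 / (4 * R))) with hE
  have hEm : E ^ m = Real.exp (-(m * (δ ^ 2 / (4 * R)))) := by
    rw [hE, ← Real.exp_nat_mul]
    congr 1
    ring
  -- upper tail functional
  have hup : ∀ a, ∑ s, W s * Real.exp (lam * (∑ k, Y a (s k) - (1 + δ) * m)) ≤ E ^ m := by
    intro a
    have h1 : ∀ s : Fin m → Ω, W s * Real.exp (lam * (∑ k, Y a (s k) - (1 + δ) * m)) =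
        ∏ k, (g (s k) * Real.exp (lam * (Y a (s k) - (1 + δ)))) := by
      intro s
      rw [Finset.prod_mul_distrib, ← Real.exp_sum]
      have h0 : ∑ k : Fin m, lam * (Y a (s k) - (1 + δ)) =
          lam * (∑ k, Y a (s k) - (1 + δ) * m) := by
        rw [← Finset.mul_sum, Finset.sum_sub_distrib, Finset.sum_const, Finset.card_univ,
          Fintype.card_fin, nsmul_eq_mul]
        ring
      rw [h0]
    simp_rw [h1]
    rw [sum_prod_weights m (fun ω => g ω * Real.exp (lam * (Y a ω - (1 + δ))))]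
    apply pow_le_pow_left₀ (Finset.sum_nonneg (fun ω _ => mul_nonneg (hg ω) (Real.exp_pos _).le))
    exact mgf_upper g hg hg1 R hR (Y a) (hY0 a) (hYR a) (hY1 a) δ hδ0 hδ1
  have hlo : ∀ a, ∑ s, W s * Real.exp (lam * ((1 - δ) * m - ∑ k, Y a (s k))) ≤ E ^ m := by
    intro a
    have h1 : ∀ s : Fin m → Ω, W s * Real.exp (lam * ((1 - δ) * m - ∑ k, Y a (s k))) =
        ∏ k, (g (s k) * Real.exp (lam * ((1 - δ) - Y a (s k)))) := by
      intro s
      rw [Finset.prod_mul_distrib, ← Real.exp_sum]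
      have h0 : ∑ k : Fin m, lam * ((1 - δ) - Y a (s k)) =
          lam * ((1 - δ) * m - ∑ k, Y a (s k)) := by
        rw [← Finset.mul_sum, Finset.sum_sub_distrib, Finset.sum_const, Finset.card_univ,
          Fintype.card_fin, nsmul_eq_mul]
        ring
      rw [h0]
    simp_rw [h1]
    rw [sum_prod_weights m (fun ω => g ω * Real.exp (lam * ((1 - δ) - Y a ω)))]
    apply pow_le_pow_left₀ (Finset.sum_nonneg (fun ω _ => mul_nonneg (hg ω) (Real.exp_pos _).le))
    exact mgf_lower g hg hg1 R hR (Y a) (hY0 a) (hYR a) (hY1 a) δ hδ0 hδ1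
  set Φ : (Fin m → Ω) → ℝ := fun s =>
    ∑ a, (Real.exp (lam * (∑ k, Y a (s k) - (1 + δ) * m)) +
      Real.exp (lam * ((1 - δ) * m - ∑ k, Y a (s k)))) with hΦ
  have hΦsum : ∑ s, W s * Φ s ≤ 2 * (Fintype.card A : ℝ) * E ^ m := by
    have h1 : ∑ s, W s * Φ s = ∑ a, (∑ s, W s * Real.exp (lam * (∑ k, Y a (s k) - (1 + δ) * m)) +
        ∑ s, W s * Real.exp (lam * ((1 - δ) * m - ∑ k, Y a (s k)))) := by
      simp_rw [hΦ, Finset.mul_sum, mul_add]
      rw [Finset.sum_comm]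
      simp_rw [Finset.sum_add_distrib]
    rw [h1]
    calc ∑ a, (∑ s, W s * Real.exp (lam * (∑ k, Y a (s k) - (1 + δ) * m)) +
        ∑ s, W s * Real.exp (lam * ((1 - δ) * m - ∑ k, Y a (s k))))
        ≤ ∑ _a : A, (E ^ m + E ^ m) :=
          Finset.sum_le_sum (fun a _ => add_le_add (hup a) (hlo a))
      _ = 2 * (Fintype.card A : ℝ) * E ^ m := by
          rw [Finset.sum_const, Finset.card_univ, nsmul_eq_mul]
          ring
  by_contra hcon
  push Not at hcon
  have hkey : ∀ s, W s ≤ W s * Φ s := by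
    intro s
    rcases (hW0 s).eq_or_lt with h0 | hpos
    · rw [← h0]; simp
    · have hgpos : ∀ k, 0 < g (s k) := by
        intro k
        rcases (hg (s k)).eq_or_lt with h0 | h
        · exfalso
          have : W s = 0 := Finset.prod_eq_zero (Finset.mem_univ k) h0.symm
          linarith
        · exact h
      obtain ⟨a, ha⟩ := hcon s hgpos
      have hΦ1 : 1 ≤ Φ s := by
        have hterm : 1 ≤ Real.exp (lam * (∑ k, Y a (s k) - (1 + δ) * m)) +
            Real.exp (lam * ((1 - δ) * m - ∑ k, Y a (s k))) := by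
          by_cases hc : (1 - δ) * m < ∑ k, Y a (s k)
          · have h2 := ha hc
            have : 0 ≤ lam * (∑ k, Y a (s k) - (1 + δ) * m) :=
              mul_nonneg hlam0.le (by linarith)
            have h3 := Real.one_le_exp this
            have h4 := Real.exp_pos (lam * ((1 - δ) * m - ∑ k, Y a (s k)))
            linarith
          · push Not at hc
            have : 0 ≤ lam * ((1 - δ) * m - ∑ k, Y a (s k)) :=
              mul_nonneg hlam0.le (by linarith)
            have h3 := Real.one_le_exp this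
            have h4 := Real.exp_pos (lam * (∑ k, Y a (s k) - (1 + δ) * m))
            linarith
        calc (1 : ℝ) ≤ Real.exp (lam * (∑ k, Y a (s k) - (1 + δ) * m)) +
            Real.exp (lam * ((1 - δ) * m - ∑ k, Y a (s k))) := hterm
          _ ≤ Φ s := by
            rw [hΦ]
            exact Finset.single_le_sum
              (f := fun a => Real.exp (lam * (∑ k, Y a (s k) - (1 + δ) * m)) +
                Real.exp (lam * ((1 - δ) * m - ∑ k, Y a (s k))))
              (fun b _ => add_nonneg (Real.exp_pos _).le (Real.exp_pos _).le)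
              (Finset.mem_univ a)
      nlinarith
  have : (1 : ℝ) ≤ 2 * (Fintype.card A : ℝ) * E ^ m := by
    calc (1 : ℝ) = ∑ s, W s := hW1.symm
      _ ≤ ∑ s, W s * Φ s := Finset.sum_le_sum (fun s _ => hkey s)
      _ ≤ _ := hΦsum
  rw [hEm] at this
  linarith

end Vale.Agent.Lib.P249.Greedy.Chernoff
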