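import Mathlib

/-!
# Sparse hop-spanners (greedy construction and the Moore bound)

For a symmetric weight `w ≥ 0` on a finite set `V` and `k ≥ 1`, there is a symmetric edge set
`E` with at most `2 * q * card V` ordered pairs (any `q` with `card V < q ^ k`) such that any
two points `u, v` are joined by a chain of at most `2 * k - 1` edges of `E`, each of weight
at most `w u v`.
-/

namespace Vale.Agent.Lib.P249.Greedy.Spanner

variable {V : Type*}

/-- a walk of at most `j` hops from `a` to `b` along the relation `A` -/
inductive Walk (A : V → V → Prop) : ℕ → V → V → Prop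
  | refl (j : ℕ) (a : V) : Walk A j a a
  | step (j : ℕ) (a c b : V) : A a c → Walk A j c b → Walk A (j + 1) a b

theorem Walk.mono_len {A : V → V → Prop} {j j' : ℕ} {a b : V} (h : Walk A j a b)
    (hj : j ≤ j') : Walk A j' a b := by
  induction h generalizing j' with
  | refl j a => exact Walk.refl j' a
  | step j a c b hac _ ih =>
    obtain ⟨j'', rfl⟩ : ∃ j'', j' = j'' + 1 := ⟨j' - 1, by omega⟩
    exact Walk.step j'' a c b hac (ih (by omega))

theorem Walk.mono_rel {A B : V → V → Prop} (hAB : ∀ a c, A a c → B a c) {j : ℕ} {a b : V}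
    (h : Walk A j a b) : Walk B j a b := by
  induction h with
  | refl j a => exact Walk.refl j a
  | step j a c b hac _ ih => exact Walk.step j a c b (hAB a c hac) ih

theorem Walk.trans {A : V → V → Prop} {i j : ℕ} {a b c : V} (h1 : Walk A i a b)
    (h2 : Walk A j b c) : Walk A (i + j) a c := by
  induction h1 with
  | refl i a => exact h2.mono_len (by omega)
  | step i a d b had _ ih =>
    exact (Walk.step (i + j) a d c had (ih h2)).mono_len (by omega)

theorem Walk.single {A : V → V → Prop} {a b : V} (h : A a b) : Walk A 1 a b :=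
  Walk.step 0 a b b h (Walk.refl 0 b)

theorem Walk.snoc {A : V → V → Prop} {j : ℕ} {a b c : V} (h1 : Walk A j a b) (h2 : A b c) :
    Walk A (j + 1) a c :=
  h1.trans (Walk.single h2)

theorem Walk.symm {A : V → V → Prop} (hA : ∀ a b, A a b → A b a) {j : ℕ} {a b : V}
    (h : Walk A j a b) : Walk A j b a := by
  induction h with
  | refl j a => exact Walk.refl j a
  | step j a c b hac _ ih => exact ih.snoc (hA a c hac)

/-- last-hop decomposition -/
theorem Walk.exists_snoc {A : V → V → Prop} {j : ℕ} {a b : V} (h : Walk A j a b) :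
    a = b ∨ ∃ c j', j = j' + 1 ∧ Walk A j' a c ∧ A c b := by
  induction h with
  | refl j a => exact Or.inl rfl
  | step j a c b hac _ ih =>
    rcases ih with rfl | ⟨c', j', rfl, h1, h2⟩
    · exact Or.inr ⟨a, j, rfl, Walk.refl j a, hac⟩
    · exact Or.inr ⟨c', j' + 1, rfl, Walk.step j' a c c' hac h1, h2⟩

/-- the relation `A` with the vertex `v` deleted -/
def Av (A : V → V → Prop) (v : V) : V → V → Prop := fun a c => A a c ∧ a ≠ v ∧ c ≠ v

theorem Av_symm {A : V → V → Prop} (hA : ∀ a b, A a b → A b a) (v : V) :
    ∀ a b, Av A v a b → Av A v b a := fun a b h => ⟨hA a b h.1, h.2.2, h.2.1⟩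

theorem Walk.avoid {A : V → V → Prop} {v : V} {j : ℕ} {a b : V} (h : Walk A j a b)
    (hv : ∀ x, Walk A j a x → x ≠ v) : Walk (Av A v) j a b := by
  induction h with
  | refl j a => exact Walk.refl j a
  | step j a c b hac _ ih =>
    refine Walk.step j a c b ⟨hac, hv a (Walk.refl _ a),
      hv c ((Walk.single hac).mono_len (by omega))⟩ (ih ?_)
    intro x hx
    exact hv x (Walk.step j a c x hac hx)

theorem Walk.avoid_succ {A : V → V → Prop} {v : V} {j : ℕ} {a b : V} (h : Walk A (j + 1) a b)
    (hv : ∀ x, Walk A j a x → x ≠ v) (hb : b ≠ v) : Walk (Av A v) (j + 1) a b := by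
  rcases h.exists_snoc with rfl | ⟨c, j', hj, h1, h2⟩
  · exact Walk.refl _ _
  · have hjj : j' = j := by omega
    subst hjj
    exact (h1.avoid hv).snoc ⟨h2, hv c h1, hb⟩

theorem Walk.ne_right {A : V → V → Prop} {v : V} {j : ℕ} {a b : V} (h : Walk (Av A v) j a b)
    (ha : a ≠ v) : b ≠ v := by
  induction h with
  | refl j a => exact ha
  | step j a c b hac _ ih => exact ih hac.2.2

theorem Walk.ne_left {A : V → V → Prop} {v : V} {j : ℕ} {a b : V} (h : Walk (Av A v) j a b)
    (hb : b ≠ v) : a ≠ v := by
  induction h with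
  | refl j a => exact hb
  | step j a c b hac _ _ => exact hac.2.1

/-- the no-short-cycle condition: in the graph with `v` deleted, two distinct neighbours of `v`
are not joined by a walk of at most `2 * k - 2` hops -/
def NC (A : V → V → Prop) (k : ℕ) : Prop :=
  ∀ v u u', A v u → A v u' → u ≠ u' → ¬ Walk (Av A v) (2 * k - 2) u' u

theorem NC.mono {A B : V → V → Prop} {k : ℕ} (hBA : ∀ a c, B a c → A a c) (h : NC A k) :
    NC B k := by
  intro v u u' hvu hvu' hne hw
  exact h v u u' (hBA _ _ hvu) (hBA _ _ hvu') hne
    (hw.mono_rel (fun a c hac => ⟨hBA _ _ hac.1, hac.2.1, hac.2.2⟩))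

/-- a walk in a relation enlarged by one symmetric pair `a, b` either avoids the new pair, or
splits at its first and last use -/
theorem Walk.new_edge {B B₁ : V → V → Prop} {a b : V}
    (hB₁ : ∀ x y, B₁ x y → B x y ∨ (x = a ∧ y = b) ∨ (x = b ∧ y = a))
    {l : ℕ} {x y : V} (h : Walk B₁ l x y) :
    Walk B l x y ∨ (∃ i j, i + j + 1 ≤ l ∧ Walk B i x a ∧ Walk B j b y) ∨
      (∃ i j, i + j + 1 ≤ l ∧ Walk B i x b ∧ Walk B j a y) := by
  induction h with
  | refl l x => exact Or.inl (Walk.refl l x)
  | step l x c y hxc _ ih =>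
    rcases hB₁ x c hxc with hB | ⟨rfl, rfl⟩ | ⟨rfl, rfl⟩
    · rcases ih with h1 | ⟨i, j, hij, h1, h2⟩ | ⟨i, j, hij, h1, h2⟩
      · exact Or.inl (Walk.step l x c y hB h1)
      · exact Or.inr (Or.inl ⟨i + 1, j, by omega, Walk.step i x c a hB h1, h2⟩)
      · exact Or.inr (Or.inr ⟨i + 1, j, by omega, Walk.step i x c b hB h1, h2⟩)
    · rcases ih with h1 | ⟨i, j, hij, h1, h2⟩ | ⟨i, j, hij, h1, h2⟩
      · exact Or.inr (Or.inl ⟨0, l, by omega, Walk.refl 0 x, h1⟩)
      · exact Or.inr (Or.inl ⟨0, j, by omega, Walk.refl 0 x, h2⟩)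
      · exact Or.inl (h2.mono_len (by omega))
    · rcases ih with h1 | ⟨i, j, hij, h1, h2⟩ | ⟨i, j, hij, h1, h2⟩
      · exact Or.inr (Or.inr ⟨0, l, by omega, Walk.refl 0 x, h1⟩)
      · exact Or.inl (h2.mono_len (by omega))
      · exact Or.inr (Or.inr ⟨0, j, by omega, Walk.refl 0 x, h2⟩)

theorem Walk.zero_eq {A : V → V → Prop} {a b : V} (h : Walk A 0 a b) : a = b := by
  cases h
  rfl

open Classical in
/-- **Moore bound.**  If all vertices within `k - 1` hops of `r` have at least `D + 1`
neighbours and there are no short cycles, the ball of radius `k` has at least `D ^ k` points. -/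
theorem moore [Fintype V] (A : V → V → Prop) (hsymm : ∀ a b, A a b → A b a)
    (hirr : ∀ a, ¬ A a a) (k : ℕ) (hNC : NC A k) (r : V) (D : ℕ)
    (hdeg : ∀ v, Walk A (k - 1) r v → D + 1 ≤ (Finset.univ.filter (fun u => A v u)).card) :
    D ^ k ≤ (Finset.univ.filter (fun v => Walk A k r v)).card := by
  classical
  set L : ℕ → Finset V := fun j =>
    Finset.univ.filter (fun v => Walk A j r v ∧ ∀ i, i < j → ¬ Walk A i r v) with hL
  have hmemL : ∀ j v, v ∈ L j ↔ (Walk A j r v ∧ ∀ i, i < j → ¬ Walk A i r v) := by
    intro j v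
    simp [hL]
  have key : ∀ j, j ≤ k → D ^ j ≤ (L j).card := by
    intro j
    induction j with
    | zero =>
      intro _
      have : r ∈ L 0 := by
        rw [hmemL]
        exact ⟨Walk.refl 0 r, fun i hi => absurd hi (Nat.not_lt_zero i)⟩
      have : 0 < (L 0).card := Finset.card_pos.mpr ⟨r, this⟩
      simpa using this
    | succ j ih =>
      intro hj
      have ihj := ih (by omega)
      have hcount : (L j).card * D ≤ (L (j + 1)).card * 1 := by
        apply Finset.card_mul_le_card_mul A
        · intro v hv
          rw [hmemL] at hv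
          have hdv := hdeg v (hv.1.mono_len (by omega))
          set Nb : Finset V := Finset.univ.filter (fun u => A v u) with hNb
          have hsub : Nb ⊆ (Nb.filter (fun u => Walk A j r u)) ∪
              Finset.bipartiteAbove A (L (j + 1)) v := by
            intro u hu
            have hvu : A v u := by simpa [hNb] using hu
            by_cases hju : Walk A j r u
            · exact Finset.mem_union_left _ (Finset.mem_filter.mpr ⟨hu, hju⟩)
            · apply Finset.mem_union_right
              rw [Finset.mem_bipartiteAbove, hmemL]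
              refine ⟨⟨hv.1.snoc hvu, ?_⟩, hvu⟩
              intro i hi hwi
              exact hju (hwi.mono_len (by omega))
          have hone : (Nb.filter (fun u => Walk A j r u)).card ≤ 1 := by
            rw [Finset.card_le_one]
            intro u hu u' hu'
            rw [Finset.mem_filter] at hu hu'
            have hvu : A v u := by simpa [hNb] using hu.1
            have hvu' : A v u' := by simpa [hNb] using hu'.1
            by_contra hne
            rcases Nat.eq_zero_or_pos j with hj0 | hjpos
            · subst hj0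
              have h1 := hu.2.zero_eq
              have h2 := hu'.2.zero_eq
              exact hne (h1.symm.trans h2)
            · obtain ⟨j', rfl⟩ : ∃ j', j = j' + 1 := ⟨j - 1, by omega⟩
              have hnv : ∀ x, Walk A j' r x → x ≠ v := by
                intro x hx hxv
                exact hv.2 j' (by omega) (hxv ▸ hx)
              have huv : u ≠ v := fun h => hirr v (h ▸ hvu)
              have hu'v : u' ≠ v := fun h => hirr v (h ▸ hvu')
              have w1 := hu.2.avoid_succ hnv huv
              have w2 := hu'.2.avoid_succ hnv hu'v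
              have w3 := ((w2.symm (Av_symm hsymm v)).trans w1).mono_len
                (j' := 2 * k - 2) (by omega)
              exact hNC v u u' hvu hvu' hne w3
          have h1 := Finset.card_le_card hsub
          have h2 := Finset.card_union_le (Nb.filter (fun u => Walk A j r u))
            (Finset.bipartiteAbove A (L (j + 1)) v)
          omega
        · intro u hu
          rw [hmemL] at hu
          rw [Finset.card_le_one]
          intro v hv v' hv'
          rw [Finset.mem_bipartiteBelow, hmemL] at hv hv'
          by_contra hne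
          have hnu : ∀ x, Walk A j r x → x ≠ u := by
            intro x hx hxu
            exact hu.2 j (by omega) (hxu ▸ hx)
          have w1 := hv.1.1.avoid hnu
          have w2 := hv'.1.1.avoid hnu
          have w3 := ((w2.symm (Av_symm hsymm u)).trans w1).mono_len
            (j' := 2 * k - 2) (by omega)
          exact hNC u v v' (hsymm _ _ hv.2) (hsymm _ _ hv'.2) hne w3
      calc D ^ (j + 1) = D ^ j * D := pow_succ D j
        _ ≤ (L j).card * D := Nat.mul_le_mul_right D ihj
        _ ≤ (L (j + 1)).card * 1 := hcount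
        _ = (L (j + 1)).card := Nat.mul_one _
  refine (key k le_rfl).trans (Finset.card_le_card ?_)
  intro v hv
  rw [hmemL] at hv
  simp [hv.1]

theorem Walk.mem_of_restrict {A : V → V → Prop} {S : Finset V} {j : ℕ} {a b : V}
    (h : Walk (fun x y => A x y ∧ x ∈ S ∧ y ∈ S) j a b) (ha : a ∈ S) : b ∈ S := by
  induction h with
  | refl j a => exact ha
  | step j a c b hac _ ih => exact ih hac.2.2

open Classical in
/-- a graph without short cycles on few vertices has a vertex of small degree -/
theorem exists_low_degree [Fintype V] (A : V → V → Prop) (hsymm : ∀ a b, A a b → A b a)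
    (hirr : ∀ a, ¬ A a a) (k : ℕ) (hNC : NC A k) (q : ℕ) (S : Finset V) (hS : S.Nonempty)
    (hq : S.card < q ^ k) : ∃ v ∈ S, (S.filter (fun u => A v u)).card ≤ q := by
  classical
  by_contra hcon
  push Not at hcon
  obtain ⟨r, hr⟩ := hS
  set B : V → V → Prop := fun x y => A x y ∧ x ∈ S ∧ y ∈ S with hB
  have hBsymm : ∀ a b, B a b → B b a := fun a b h => ⟨hsymm a b h.1, h.2.2, h.2.1⟩
  have hBirr : ∀ a, ¬ B a a := fun a h => hirr a h.1
  have hBNC : NC B k := hNC.mono (fun a c h => h.1)
  have hdeg : ∀ v, Walk B (k - 1) r v →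
      q + 1 ≤ (Finset.univ.filter (fun u => B v u)).card := by
    intro v hv
    have hvS : v ∈ S := hv.mem_of_restrict hr
    have h1 := hcon v hvS
    have h2 : S.filter (fun u => A v u) ⊆ Finset.univ.filter (fun u => B v u) := by
      intro u hu
      rw [Finset.mem_filter] at hu
      simp [hB, hu.1, hu.2, hvS]
    have := Finset.card_le_card h2
    omega
  have hm := moore B hBsymm hBirr k hBNC r q (by
    intro v hv
    convert hdeg v hv)
  have h3 : ∀ v, Walk B k r v → v ∈ S := fun v hv => hv.mem_of_restrict hr
  have h4 : Finset.univ.filter (fun v => Walk B k r v) ⊆ S := by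
    intro v hv
    rw [Finset.mem_filter] at hv
    exact h3 v hv.2
  have := Finset.card_le_card h4
  omega

open Classical in
/-- a graph without short cycles has few edges -/
theorem card_edges_le [Fintype V] (A : V → V → Prop) (hsymm : ∀ a b, A a b → A b a)
    (hirr : ∀ a, ¬ A a a) (k : ℕ) (hNC : NC A k) (q : ℕ) (hq : Fintype.card V < q ^ k)
    (S : Finset V) :
    ((S ×ˢ S).filter (fun e : V × V => A e.1 e.2)).card ≤ 2 * q * S.card := by
  classical
  induction S using Finset.strongInduction with
  | H S ih =>
    rcases S.eq_empty_or_nonempty with rfl | hne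
    · simp
    · have hcard : S.card < q ^ k := lt_of_le_of_lt (Finset.card_le_univ S) hq
      obtain ⟨v, hvS, hv⟩ := exists_low_degree A hsymm hirr k hNC q S hne hcard
      have ih' := ih (S.erase v) (Finset.erase_ssubset hvS)
      have hsub : (S ×ˢ S).filter (fun e : V × V => A e.1 e.2) ⊆
          (((S.erase v) ×ˢ (S.erase v)).filter (fun e : V × V => A e.1 e.2)) ∪
          ((S.filter (fun u => A v u)).image (fun u => (v, u)) ∪
            (S.filter (fun u => A v u)).image (fun u => (u, v))) := by
        rintro ⟨a, b⟩ hab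
        simp only [Finset.mem_filter, Finset.mem_product] at hab
        obtain ⟨⟨ha, hb⟩, hA⟩ := hab
        by_cases hav : a = v
        · subst hav
          apply Finset.mem_union_right
          apply Finset.mem_union_left
          exact Finset.mem_image.mpr ⟨b, Finset.mem_filter.mpr ⟨hb, hA⟩, rfl⟩
        · by_cases hbv : b = v
          · subst hbv
            apply Finset.mem_union_right
            apply Finset.mem_union_right
            exact Finset.mem_image.mpr ⟨a, Finset.mem_filter.mpr ⟨ha, hsymm _ _ hA⟩, rfl⟩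
          · apply Finset.mem_union_left
            simp only [Finset.mem_filter, Finset.mem_product, Finset.mem_erase]
            exact ⟨⟨⟨hav, ha⟩, ⟨hbv, hb⟩⟩, hA⟩
      have h1 := Finset.card_le_card hsub
      have h2 := Finset.card_union_le
        (((S.erase v) ×ˢ (S.erase v)).filter (fun e : V × V => A e.1 e.2))
        ((S.filter (fun u => A v u)).image (fun u => (v, u)) ∪
            (S.filter (fun u => A v u)).image (fun u => (u, v)))
      have h3 := Finset.card_union_le
        ((S.filter (fun u => A v u)).image (fun u => (v, u)))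
        ((S.filter (fun u => A v u)).image (fun u => (u, v)))
      have h4 : ((S.filter (fun u => A v u)).image (fun u => (v, u))).card ≤ q :=
        Finset.card_image_le.trans hv
      have h5 : ((S.filter (fun u => A v u)).image (fun u => (u, v))).card ≤ q :=
        Finset.card_image_le.trans hv
      have h6 : (S.erase v).card + 1 = S.card := Finset.card_erase_add_one hvS
      have h7 : 2 * q * S.card = 2 * q * (S.erase v).card + 2 * q := by
        rw [← h6]; ring
      omega

/-- a graph without short cycles has few edges (statement free of decidability instances) -/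
theorem card_edges_le' [Fintype V] (A : V → V → Prop) (hsymm : ∀ a b, A a b → A b a)
    (hirr : ∀ a, ¬ A a a) (k : ℕ) (hNC : NC A k) (q : ℕ) (hq : Fintype.card V < q ^ k)
    (P : Finset (V × V)) (hP : ∀ e ∈ P, A e.1 e.2) : P.card ≤ 2 * q * Fintype.card V := by
  classical
  have h := card_edges_le A hsymm hirr k hNC q hq Finset.univ
  rw [Finset.card_univ] at h
  refine le_trans (Finset.card_le_card ?_) h
  intro e he
  exact Finset.mem_filter.mpr
    ⟨Finset.mem_product.mpr ⟨Finset.mem_univ _, Finset.mem_univ _⟩, hP e he⟩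

/-- **Greedy construction.** -/
theorem greedy [DecidableEq V] (w : V → V → ℝ) (hws : ∀ a b, w a b = w b a) (k : ℕ)
    (hk : 1 ≤ k) (S : Finset (V × V)) :
    ∃ E : Finset (V × V), (∀ a b, (a, b) ∈ E → (b, a) ∈ E) ∧ (∀ a b, (a, b) ∈ E → a ≠ b) ∧
      (∀ a b, (a, b) ∈ E → (a, b) ∈ S ∨ (b, a) ∈ S) ∧
      NC (fun a b => (a, b) ∈ E) k ∧
      ∀ e ∈ S, Walk (fun a c => (a, c) ∈ E ∧ w a c ≤ w e.1 e.2) (2 * k - 1) e.1 e.2 := by
  induction S using Finset.induction_on_max_value (fun e : V × V => w e.1 e.2) with
  | empty =>
    refine ⟨∅, by simp, by simp, by simp, ?_, by simp⟩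
    intro v u u' h
    simp at h
  | insert e₀ S he₀ hmax ih =>
    obtain ⟨E, hEs, hEi, hES, hENC, hEW⟩ := ih
    obtain ⟨a, b⟩ := e₀
    by_cases hwalk : Walk (fun x y => (x, y) ∈ E) (2 * k - 1) a b
    · refine ⟨E, hEs, hEi, ?_, hENC, ?_⟩
      · intro x y hxy
        rcases hES x y hxy with h | h
        · exact Or.inl (Finset.mem_insert_of_mem h)
        · exact Or.inr (Finset.mem_insert_of_mem h)
      · intro e he
        rcases Finset.mem_insert.mp he with rfl | heS
        · refine hwalk.mono_rel ?_
          intro x y hxy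
          refine ⟨hxy, ?_⟩
          rcases hES x y hxy with h | h
          · exact hmax (x, y) h
          · have := hmax (y, x) h
            simp only at this
            rw [hws x y]
            exact this
        · exact hEW e heS
    · have hab : a ≠ b := by
        rintro rfl
        exact hwalk (Walk.refl _ _)
      have hwalk' : ¬ Walk (fun x y => (x, y) ∈ E) (2 * k - 1) b a := fun h =>
        hwalk (h.symm hEs)
      have hA₁ : ∀ x y, (x, y) ∈ insert (a, b) (insert (b, a) E) →
          (x, y) ∈ E ∨ (x = a ∧ y = b) ∨ (x = b ∧ y = a) := by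
        intro x y h
        rcases Finset.mem_insert.mp h with h | h
        · exact Or.inr (Or.inl ⟨congrArg Prod.fst h, congrArg Prod.snd h⟩)
        · rcases Finset.mem_insert.mp h with h | h
          · exact Or.inr (Or.inr ⟨congrArg Prod.fst h, congrArg Prod.snd h⟩)
          · exact Or.inl h
      have hirr₁ : ∀ x y, (x, y) ∈ insert (a, b) (insert (b, a) E) → x ≠ y := by
        intro x y h
        rcases hA₁ x y h with h | ⟨rfl, rfl⟩ | ⟨rfl, rfl⟩
        · exact hEi x y h
        · exact hab
        · exact hab.symm
      refine ⟨insert (a, b) (insert (b, a) E), ?_, hirr₁, ?_, ?_, ?_⟩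
      · intro x y h
        rcases hA₁ x y h with h | ⟨rfl, rfl⟩ | ⟨rfl, rfl⟩
        · exact Finset.mem_insert_of_mem (Finset.mem_insert_of_mem (hEs x y h))
        · exact Finset.mem_insert_of_mem (Finset.mem_insert_self _ _)
        · exact Finset.mem_insert_self _ _
      · intro x y h
        rcases hA₁ x y h with h | ⟨rfl, rfl⟩ | ⟨rfl, rfl⟩
        · rcases hES x y h with h | h
          · exact Or.inl (Finset.mem_insert_of_mem h)
          · exact Or.inr (Finset.mem_insert_of_mem h)
        · exact Or.inl (Finset.mem_insert_self _ _)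
        · exact Or.inr (Finset.mem_insert_self _ _)
      · intro v u u' hvu hvu' hne hw
        have huv : u ≠ v := (hirr₁ v u hvu).symm
        have hu'v : u' ≠ v := (hirr₁ v u' hvu').symm
        have hsplit := Walk.new_edge (B := Av (fun x y => (x, y) ∈ E) v) (a := a) (b := b)
          (by
            intro x y h
            rcases hA₁ x y h.1 with h1 | h1 | h1
            · exact Or.inl ⟨h1, h.2⟩
            · exact Or.inr (Or.inl h1)
            · exact Or.inr (Or.inr h1)) hw
        rcases hsplit with h1 | ⟨i, j, hij, h1, h2⟩ | ⟨i, j, hij, h1, h2⟩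
        · have h1' : Walk (fun x y => (x, y) ∈ E) (2 * k - 2) u' u :=
            h1.mono_rel (fun _ _ h => h.1)
          rcases hA₁ v u hvu with hvuE | ⟨rfl, rfl⟩ | ⟨rfl, rfl⟩
          · rcases hA₁ v u' hvu' with hvu'E | ⟨rfl, rfl⟩ | ⟨rfl, rfl⟩
            · exact hENC v u u' hvuE hvu'E hne h1
            · exact hwalk' ((h1'.snoc (hEs _ _ hvuE)).mono_len (by omega))
            · exact hwalk ((h1'.snoc (hEs _ _ hvuE)).mono_len (by omega))
          · rcases hA₁ v u' hvu' with hvu'E | ⟨_, rfl⟩ | ⟨h3, _⟩
            · exact hwalk ((Walk.step _ v u' u hvu'E h1').mono_len (by omega))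
            · exact hne rfl
            · exact hab h3
          · rcases hA₁ v u' hvu' with hvu'E | ⟨h3, _⟩ | ⟨_, rfl⟩
            · exact hwalk' ((Walk.step _ v u' u hvu'E h1').mono_len (by omega))
            · exact hab h3.symm
            · exact hne rfl
        · have hav : a ≠ v := h1.ne_right hu'v
          have hbv : b ≠ v := h2.ne_left huv
          have hvuE : (v, u) ∈ E := by
            rcases hA₁ v u hvu with h | ⟨h, _⟩ | ⟨h, _⟩
            · exact h
            · exact absurd h.symm hav
            · exact absurd h.symm hbv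
          have hvu'E : (v, u') ∈ E := by
            rcases hA₁ v u' hvu' with h | ⟨h, _⟩ | ⟨h, _⟩
            · exact h
            · exact absurd h.symm hav
            · exact absurd h.symm hbv
          have h1' : Walk (fun x y => (x, y) ∈ E) i u' a := h1.mono_rel (fun _ _ h => h.1)
          have h2' : Walk (fun x y => (x, y) ∈ E) j b u := h2.mono_rel (fun _ _ h => h.1)
          have h3 := (((h1'.symm hEs).snoc (hEs _ _ hvu'E)).snoc hvuE).trans (h2'.symm hEs)
          exact hwalk' ((h3.symm hEs).mono_len (by omega))
        · have hbv : b ≠ v := h1.ne_right hu'v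
          have hav : a ≠ v := h2.ne_left huv
          have hvuE : (v, u) ∈ E := by
            rcases hA₁ v u hvu with h | ⟨h, _⟩ | ⟨h, _⟩
            · exact h
            · exact absurd h.symm hav
            · exact absurd h.symm hbv
          have hvu'E : (v, u') ∈ E := by
            rcases hA₁ v u' hvu' with h | ⟨h, _⟩ | ⟨h, _⟩
            · exact h
            · exact absurd h.symm hav
            · exact absurd h.symm hbv
          have h1' : Walk (fun x y => (x, y) ∈ E) i u' b := h1.mono_rel (fun _ _ h => h.1)
          have h2' : Walk (fun x y => (x, y) ∈ E) j a u := h2.mono_rel (fun _ _ h => h.1)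
          have h3 := (((h1'.symm hEs).snoc (hEs _ _ hvu'E)).snoc hvuE).trans (h2'.symm hEs)
          exact hwalk ((h3.symm hEs).mono_len (by omega))
      · intro e he
        rcases Finset.mem_insert.mp he with rfl | heS
        · exact (Walk.single ⟨Finset.mem_insert_self _ _, le_rfl⟩).mono_len (by omega)
        · exact (hEW e heS).mono_rel (fun x y h =>
            ⟨Finset.mem_insert_of_mem (Finset.mem_insert_of_mem h.1), h.2⟩)

theorem Walk.chain_bound {E : Finset (V × V)} {w : V → V → ℝ} {t : ℝ} (ht : 0 ≤ t) {φ : V → ℝ}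
    {c : ℝ} (hc : 0 ≤ c) (hφ : ∀ e ∈ E, |φ e.1 - φ e.2| ≤ c * w e.1 e.2) {j : ℕ} {u v : V}
    (h : Walk (fun a b => (a, b) ∈ E ∧ w a b ≤ t) j u v) : |φ u - φ v| ≤ (j : ℝ) * c * t := by
  induction h with
  | refl j a =>
    simp only [sub_self, abs_zero]
    positivity
  | step j a d b had _ ih =>
    have h1 := hφ (a, d) had.1
    have h2 : |φ a - φ b| ≤ |φ a - φ d| + |φ d - φ b| := abs_sub_le _ _ _
    have h3 : c * w a d ≤ c * t := mul_le_mul_of_nonneg_left had.2 hc
    push_cast
    simp only at h1
    nlinarith

/-- **Sparse hop-spanner.** -/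
theorem spanner [Fintype V] [DecidableEq V] (w : V → V → ℝ) (hw0 : ∀ a b, 0 ≤ w a b)
    (hws : ∀ a b, w a b = w b a) (k q : ℕ) (hk : 1 ≤ k) (hq : Fintype.card V < q ^ k) :
    ∃ E : Finset (V × V), E.card ≤ 2 * q * Fintype.card V ∧
      (∀ a b, (a, b) ∈ E → (b, a) ∈ E) ∧
      ∀ (φ : V → ℝ) (c : ℝ), 0 ≤ c → (∀ e ∈ E, |φ e.1 - φ e.2| ≤ c * w e.1 e.2) →
        ∀ u v, |φ u - φ v| ≤ ((2 * k - 1 : ℕ) : ℝ) * c * w u v := by
  classical
  obtain ⟨E, hEs, hEi, -, hENC, hEW⟩ := greedy w hws k hk Finset.univ
  refine ⟨E, ?_, hEs, ?_⟩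
  · exact card_edges_le' (fun a b => (a, b) ∈ E) hEs (fun a h => hEi a a h rfl) k hENC q hq E
      (fun e he => he)
  · intro φ c hc hφ u v
    exact Walk.chain_bound (hw0 u v) hc hφ (hEW (u, v) (Finset.mem_univ _))

end Vale.Agent.Lib.P249.Greedy.Spanner
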