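import Mathlib
import Vale.Agent.Lib.P249.Greedy.Chernoff
import Vale.Agent.Lib.P249.Greedy.Spanner

/-!
# Near-linear dimension reduction in `ℓ_p` by sampling coordinates

Points `x i ∈ ℝ^N` (`i : Fin n`), `p > 0`.  A coordinate `ω` is sampled with a probability
`g ω` dominating all the normalised contributions `|x u ω - x v ω|^p / ∑ |x u - x v|^p`
up to a factor `R`; a sparse hop-spanner of the `ℓ_p` distances gives such a `g` with
`R ≤ 2 * q * n * (2 * k - 1)^p` whenever `n < q ^ k`.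
-/

namespace Vale.Agent.Lib.P249.Greedy.Main

open Finset

/-- a vanishing sum of `p`-th powers forces all terms to vanish -/
theorem terms_zero (p : ℝ) (hp : 0 < p) {N : ℕ} (a b : Fin N → ℝ)
    (h : ∑ ω, |a ω - b ω| ^ p = 0) (ω : Fin N) : |a ω - b ω| = 0 := by
  have h0 : ∀ ω ∈ (Finset.univ : Finset (Fin N)), 0 ≤ |a ω - b ω| ^ p :=
    fun ω _ => Real.rpow_nonneg (abs_nonneg _) p
  have h1 := (Finset.sum_eq_zero_iff_of_nonneg h0).mp h ω (Finset.mem_univ ω)
  exact (Real.rpow_eq_zero (abs_nonneg _) hp.ne').mp h1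

/-- **Sampling coordinates.**  If the density `g` dominates all pair sensitivities up to the
factor `R`, then `4 * R * log (2 * n ^ 2) / δ ^ 2 + 1` sampled and rescaled coordinates
preserve all `p`-th powers of the pairwise `ℓ_p` distances up to `1 ± δ`. -/
theorem sample_embed (p : ℝ) (hp : 0 < p) (δ : ℝ) (hδ0 : 0 < δ) (hδ1 : δ ≤ 1) (n N : ℕ)
    (hn : 1 ≤ n) (x : Fin n → Fin N → ℝ) (g : Fin N → ℝ) (R : ℝ) (hg0 : ∀ ω, 0 ≤ g ω)
    (hg1 : ∑ ω, g ω = 1) (hR : 0 < R)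
    (hsens : ∀ u v ω, |x u ω - x v ω| ^ p ≤ R * g ω * ∑ ω', |x u ω' - x v ω'| ^ p) :
    ∃ (m : ℕ) (s : Fin m → Fin N) (c : Fin m → ℝ),
      (m : ℝ) ≤ 4 * R * Real.log (2 * (n : ℝ) ^ 2) / δ ^ 2 + 1 ∧ (∀ t, 0 ≤ c t) ∧
      ∀ i j, (1 - δ) * ∑ ω, |x i ω - x j ω| ^ p ≤
            ∑ t, |c t * x i (s t) - c t * x j (s t)| ^ p ∧
          ∑ t, |c t * x i (s t) - c t * x j (s t)| ^ p ≤
            (1 + δ) * ∑ ω, |x i ω - x j ω| ^ p := by
  classical
  set Wt : Fin n → Fin n → ℝ := fun u v => ∑ ω, |x u ω - x v ω| ^ p with hWt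
  have hWt0 : ∀ u v, 0 ≤ Wt u v := fun u v =>
    Finset.sum_nonneg (fun ω _ => Real.rpow_nonneg (abs_nonneg _) p)
  have hterm0 : ∀ u v ω, 0 ≤ |x u ω - x v ω| ^ p := fun u v ω =>
    Real.rpow_nonneg (abs_nonneg _) p
  -- the index set: pairs at positive distance
  let A : Type := {uv : Fin n × Fin n // 0 < Wt uv.1 uv.2}
  set Y : A → Fin N → ℝ := fun a ω =>
    |x a.1.1 ω - x a.1.2 ω| ^ p / (g ω * Wt a.1.1 a.1.2) with hY
  have hY0 : ∀ a ω, 0 ≤ Y a ω := fun a ω =>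
    div_nonneg (hterm0 _ _ _) (mul_nonneg (hg0 ω) (hWt0 _ _))
  have hYR : ∀ a ω, Y a ω ≤ R := by
    intro a ω
    rcases (hg0 ω).eq_or_lt with h0 | hpos
    · simp only [hY, ← h0, zero_mul, div_zero]
      exact hR.le
    · rw [hY]
      simp only
      rw [div_le_iff₀ (mul_pos hpos a.2)]
      have := hsens a.1.1 a.1.2 ω
      calc |x a.1.1 ω - x a.1.2 ω| ^ p ≤ R * g ω * Wt a.1.1 a.1.2 := this
        _ = R * (g ω * Wt a.1.1 a.1.2) := by ring
  have hY1 : ∀ a, ∑ ω, g ω * Y a ω = 1 := by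
    intro a
    have hpt : ∀ ω, g ω * Y a ω = |x a.1.1 ω - x a.1.2 ω| ^ p / Wt a.1.1 a.1.2 := by
      intro ω
      rcases (hg0 ω).eq_or_lt with h0 | hpos
      · have h1 := hsens a.1.1 a.1.2 ω
        rw [← h0] at h1
        have h2 : |x a.1.1 ω - x a.1.2 ω| ^ p = 0 :=
          le_antisymm (by simpa using h1) (hterm0 _ _ _)
        rw [← h0, h2]
        simp
      · rw [hY]
        simp only
        have hW : Wt a.1.1 a.1.2 ≠ 0 := a.2.ne'
        field_simp
    simp_rw [hpt]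
    rw [← Finset.sum_div]
    exact div_self a.2.ne'
  -- the number of samples
  set T : ℝ := 4 * R * Real.log (2 * (n : ℝ) ^ 2) / δ ^ 2 with hT
  set m : ℕ := ⌊T⌋₊ + 1 with hm
  have hn0 : (0 : ℝ) < 2 * (n : ℝ) ^ 2 := by
    have : (1 : ℝ) ≤ n := by exact_mod_cast hn
    positivity
  have hlog0 : 0 ≤ Real.log (2 * (n : ℝ) ^ 2) := by
    apply Real.log_nonneg
    have : (1 : ℝ) ≤ n := by exact_mod_cast hn
    nlinarith
  have hT0 : 0 ≤ T := by rw [hT]; positivity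
  have hTm : T < (m : ℝ) := by
    rw [hm]
    push_cast
    exact Nat.lt_floor_add_one T
  have hmle : (m : ℝ) ≤ T + 1 := by
    rw [hm]
    push_cast
    have := Nat.floor_le hT0
    linarith
  have hcardA : (Fintype.card A : ℝ) ≤ (n : ℝ) ^ 2 := by
    have h1 : Fintype.card A ≤ Fintype.card (Fin n × Fin n) := Fintype.card_subtype_le _
    have h2 : Fintype.card (Fin n × Fin n) = n * n := by simp
    have h3 : Fintype.card A ≤ n * n := h2 ▸ h1
    have : (Fintype.card A : ℝ) ≤ ((n * n : ℕ) : ℝ) := by exact_mod_cast h3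
    rw [pow_two]
    exact_mod_cast this
  have hexp : Real.exp (-(m * (δ ^ 2 / (4 * R)))) < (2 * (n : ℝ) ^ 2)⁻¹ := by
    have h1 : Real.log (2 * (n : ℝ) ^ 2) < m * (δ ^ 2 / (4 * R)) := by
      have h2 : T * (δ ^ 2 / (4 * R)) = Real.log (2 * (n : ℝ) ^ 2) := by
        rw [hT]
        field_simp
      rw [← h2]
      exact mul_lt_mul_of_pos_right hTm (by positivity)
    calc Real.exp (-(m * (δ ^ 2 / (4 * R)))) < Real.exp (-Real.log (2 * (n : ℝ) ^ 2)) :=
          Real.exp_lt_exp.mpr (by linarith)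
      _ = (2 * (n : ℝ) ^ 2)⁻¹ := by rw [Real.exp_neg, Real.exp_log hn0]
  have hmcond : 2 * (Fintype.card A : ℝ) * Real.exp (-(m * (δ ^ 2 / (4 * R)))) < 1 := by
    have hcA0 : (0 : ℝ) ≤ Fintype.card A := Nat.cast_nonneg _
    have hexp0 := Real.exp_pos (-(m * (δ ^ 2 / (4 * R))))
    calc 2 * (Fintype.card A : ℝ) * Real.exp (-(m * (δ ^ 2 / (4 * R))))
        ≤ 2 * (n : ℝ) ^ 2 * Real.exp (-(m * (δ ^ 2 / (4 * R)))) := by
          apply mul_le_mul_of_nonneg_right _ hexp0.le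
          linarith
      _ < 2 * (n : ℝ) ^ 2 * (2 * (n : ℝ) ^ 2)⁻¹ := mul_lt_mul_of_pos_left hexp hn0
      _ = 1 := mul_inv_cancel₀ hn0.ne'
  obtain ⟨s, hs0, hs⟩ := Chernoff.sampling g hg0 hg1 R hR Y hY0 hYR hY1 δ hδ0 hδ1 m hmcond
  have hm0 : (0 : ℝ) < m := by
    rw [hm]
    push_cast
    positivity
  set c : Fin m → ℝ := fun t => (1 / ((m : ℝ) * g (s t))) ^ (1 / p) with hc
  have hc0 : ∀ t, 0 ≤ c t := fun t =>
    Real.rpow_nonneg (by have := hs0 t; positivity) _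
  have hcp : ∀ t, c t ^ p = 1 / ((m : ℝ) * g (s t)) := by
    intro t
    rw [hc]
    simp only
    rw [one_div p]
    exact Real.rpow_inv_rpow (by have := hs0 t; positivity) hp.ne'
  have hkey : ∀ u v t, |c t * x u (s t) - c t * x v (s t)| ^ p =
      |x u (s t) - x v (s t)| ^ p / ((m : ℝ) * g (s t)) := by
    intro u v t
    rw [← mul_sub, abs_mul, abs_of_nonneg (hc0 t), Real.mul_rpow (hc0 t) (abs_nonneg _), hcp t]
    ring
  refine ⟨m, s, c, hmle, hc0, ?_⟩
  intro i j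
  simp_rw [hkey]
  rcases (hWt0 i j).eq_or_lt with h0 | hpos
  · have hz : ∀ ω, |x i ω - x j ω| = 0 := terms_zero p hp (x i) (x j) h0.symm
    have hz' : ∀ ω, |x i ω - x j ω| ^ p = 0 := fun ω => by
      rw [hz ω, Real.zero_rpow hp.ne']
    simp [hz']
  · have ha := hs ⟨(i, j), hpos⟩
    have hsum : ∑ t, |x i (s t) - x j (s t)| ^ p / ((m : ℝ) * g (s t)) =
        Wt i j / m * ∑ t, Y ⟨(i, j), hpos⟩ (s t) := by
      rw [Finset.mul_sum]
      apply Finset.sum_congr rfl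
      intro t _
      rw [hY]
      simp only
      have hg := (hs0 t).ne'
      have hW := hpos.ne'
      field_simp
    rw [hsum]
    have hWm : 0 < Wt i j / m := div_pos hpos hm0
    constructor
    · have : (1 - δ) * Wt i j = Wt i j / m * ((1 - δ) * m) := by field_simp
      rw [show (∑ ω, |x i ω - x j ω| ^ p) = Wt i j from rfl, this]
      exact mul_le_mul_of_nonneg_left ha.1.le hWm.le
    · have : (1 + δ) * Wt i j = Wt i j / m * ((1 + δ) * m) := by field_simp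
      rw [show (∑ ω, |x i ω - x j ω| ^ p) = Wt i j from rfl, this]
      exact mul_le_mul_of_nonneg_left ha.2.le hWm.le

/-- **Sensitivity bound from a sparse hop-spanner.**  Either all points coincide, or there is
a probability density `g` on the coordinates dominating every pair sensitivity up to the
factor `R ≤ 2 * q * n * (2 * k - 1) ^ p`. -/
theorem sensitivity (p : ℝ) (hp : 0 < p) (n : ℕ) (k q : ℕ) (hk : 1 ≤ k) (hq : n < q ^ k)
    (N : ℕ) (x : Fin n → Fin N → ℝ) :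
    (∀ u v ω, x u ω = x v ω) ∨
    ∃ (g : Fin N → ℝ) (R : ℝ), (∀ ω, 0 ≤ g ω) ∧ ∑ ω, g ω = 1 ∧ 0 < R ∧
      R ≤ 2 * q * n * (2 * (k : ℝ) - 1) ^ p ∧
      ∀ u v ω, |x u ω - x v ω| ^ p ≤ R * g ω * ∑ ω', |x u ω' - x v ω'| ^ p := by
  classical
  set Wt : Fin n → Fin n → ℝ := fun u v => ∑ ω, |x u ω - x v ω| ^ p with hWt
  have hWt0 : ∀ u v, 0 ≤ Wt u v := fun u v =>
    Finset.sum_nonneg (fun ω _ => Real.rpow_nonneg (abs_nonneg _) p)
  have hterm0 : ∀ u v ω, 0 ≤ |x u ω - x v ω| ^ p := fun u v ω =>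
    Real.rpow_nonneg (abs_nonneg _) p
  have hWts : ∀ u v, Wt u v = Wt v u := by
    intro u v
    apply Finset.sum_congr rfl
    intro ω _
    rw [abs_sub_comm]
  set w : Fin n → Fin n → ℝ := fun u v => Wt u v ^ (1 / p) with hw
  have hw0 : ∀ u v, 0 ≤ w u v := fun u v => Real.rpow_nonneg (hWt0 u v) _
  have hws : ∀ u v, w u v = w v u := fun u v => by rw [hw]; simp only; rw [hWts u v]
  have hwp : ∀ u v, w u v ^ p = Wt u v := by
    intro u v
    rw [hw]
    simp only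
    rw [one_div p]
    exact Real.rpow_inv_rpow (hWt0 u v) hp.ne'
  obtain ⟨E, hEcard, hEs, hE⟩ := Spanner.spanner w hw0 hws k q hk (by simpa using hq)
  rw [Fintype.card_fin] at hEcard
  set h : ℝ := ((2 * k - 1 : ℕ) : ℝ) with hh
  have hhk : h = 2 * (k : ℝ) - 1 := by
    rw [hh, Nat.cast_sub (by omega)]
    push_cast
    ring
  have hh1 : 1 ≤ h := by
    rw [hhk]
    have : (1 : ℝ) ≤ k := by exact_mod_cast hk
    linarith
  set E' : Finset (Fin n × Fin n) := E.filter (fun e => 0 < Wt e.1 e.2) with hE'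
  rcases E'.eq_empty_or_nonempty with hemp | hne
  · left
    intro u v ω
    have hedge : ∀ e ∈ E, |x e.1 ω - x e.2 ω| ≤ 0 * w e.1 e.2 := by
      intro e he
      have hnot : ¬ 0 < Wt e.1 e.2 := by
        intro hpos
        have : e ∈ E' := Finset.mem_filter.mpr ⟨he, hpos⟩
        rw [hemp] at this
        exact absurd this (Finset.notMem_empty e)
      have hz : Wt e.1 e.2 = 0 := le_antisymm (not_lt.mp hnot) (hWt0 _ _)
      rw [terms_zero p hp (x e.1) (x e.2) hz ω]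
      simp
    have := hE (fun u => x u ω) 0 le_rfl hedge u v
    simp only [mul_zero, zero_mul] at this
    have h2 : |x u ω - x v ω| = 0 := le_antisymm this (abs_nonneg _)
    exact sub_eq_zero.mp (abs_eq_zero.mp h2)
  · right
    set M : ℝ := (E'.card : ℝ) with hM
    have hM0 : 0 < M := by
      rw [hM]
      exact_mod_cast Finset.card_pos.mpr hne
    set f : Fin n × Fin n → Fin N → ℝ := fun e ω =>
      |x e.1 ω - x e.2 ω| ^ p / Wt e.1 e.2 with hf
    have hf0 : ∀ e ω, 0 ≤ f e ω := fun e ω => div_nonneg (hterm0 _ _ _) (hWt0 _ _)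
    set g : Fin N → ℝ := fun ω => (∑ e ∈ E', f e ω) / M with hg
    have hMg : ∀ ω, M * g ω = ∑ e ∈ E', f e ω := by
      intro ω
      rw [hg]
      field_simp
    have hg0 : ∀ ω, 0 ≤ g ω := fun ω =>
      div_nonneg (Finset.sum_nonneg (fun e _ => hf0 e ω)) hM0.le
    have hg1 : ∑ ω, g ω = 1 := by
      rw [hg]
      simp only
      rw [← Finset.sum_div, Finset.sum_comm]
      have h1 : ∀ e ∈ E', ∑ ω, f e ω = 1 := by
        intro e he
        have hpos : 0 < Wt e.1 e.2 := (Finset.mem_filter.mp he).2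
        rw [hf]
        simp only
        rw [← Finset.sum_div]
        exact div_self hpos.ne'
      rw [Finset.sum_congr rfl h1, Finset.sum_const, nsmul_eq_mul, mul_one]
      exact div_self hM0.ne'
    refine ⟨g, h ^ p * M, hg0, hg1, by positivity, ?_, ?_⟩
    · have h1 : M ≤ 2 * q * n := by
        have h2 : E'.card ≤ E.card := Finset.card_le_card (Finset.filter_subset _ _)
        have h3 : E'.card ≤ 2 * q * n := h2.trans hEcard
        rw [hM]
        exact_mod_cast h3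
      rw [← hhk]
      have h4 : 0 ≤ h ^ p := by positivity
      nlinarith
    · intro u v ω
      set c : ℝ := (M * g ω) ^ (1 / p) with hc
      have hMg0 : 0 ≤ M * g ω := mul_nonneg hM0.le (hg0 ω)
      have hc0 : 0 ≤ c := Real.rpow_nonneg hMg0 _
      have hcp : c ^ p = M * g ω := by
        rw [hc, one_div p]
        exact Real.rpow_inv_rpow hMg0 hp.ne'
      have hedge : ∀ e ∈ E, |x e.1 ω - x e.2 ω| ≤ c * w e.1 e.2 := by
        intro e he
        by_cases hpos : 0 < Wt e.1 e.2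
        · have heE' : e ∈ E' := Finset.mem_filter.mpr ⟨he, hpos⟩
          have h1 : f e ω ≤ M * g ω := by
            rw [hMg ω]
            exact Finset.single_le_sum (fun e' _ => hf0 e' ω) heE'
          have h2 : |x e.1 ω - x e.2 ω| ^ p ≤ M * g ω * Wt e.1 e.2 := by
            rw [hf] at h1
            simp only at h1
            rwa [div_le_iff₀ hpos] at h1
          have h3 : (|x e.1 ω - x e.2 ω| ^ p) ^ (1 / p) ≤
              (M * g ω * Wt e.1 e.2) ^ (1 / p) :=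
            Real.rpow_le_rpow (hterm0 _ _ _) h2 (by positivity)
          rw [one_div p, Real.rpow_rpow_inv (abs_nonneg _) hp.ne',
            Real.mul_rpow hMg0 (hWt0 _ _)] at h3
          rw [hc, hw]
          simp only
          rw [one_div p]
          exact h3
        · have hz : Wt e.1 e.2 = 0 := le_antisymm (not_lt.mp hpos) (hWt0 _ _)
          rw [terms_zero p hp (x e.1) (x e.2) hz ω]
          exact mul_nonneg hc0 (hw0 _ _)
      have h1 := hE (fun u => x u ω) c hc0 hedge u v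
      have h2 : |x u ω - x v ω| ^ p ≤ (h * c * w u v) ^ p :=
        Real.rpow_le_rpow (abs_nonneg _) h1 hp.le
      have hh0 : 0 ≤ h := by linarith
      rw [Real.mul_rpow (mul_nonneg hh0 hc0) (hw0 u v), Real.mul_rpow hh0 hc0, hcp, hwp] at h2
      calc |x u ω - x v ω| ^ p ≤ h ^ p * (M * g ω) * Wt u v := h2
        _ = h ^ p * M * g ω * ∑ ω', |x u ω' - x v ω'| ^ p := by ring

/-- **Core theorem** (general trade-off).  For `n < q ^ k`, sampling at most
`8 * q * n * (2 * k - 1) ^ p * log (2 * n ^ 2) / δ ^ 2 + 1` rescaled coordinates preserves all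
`p`-th powers of pairwise `ℓ_p` distances up to `1 ± δ`. -/
theorem core (p : ℝ) (hp : 0 < p) (δ : ℝ) (hδ0 : 0 < δ) (hδ1 : δ ≤ 1) (n : ℕ) (hn : 1 ≤ n)
    (k q : ℕ) (hk : 1 ≤ k) (hq : n < q ^ k) (N : ℕ) (x : Fin n → Fin N → ℝ) :
    ∃ (m : ℕ) (s : Fin m → Fin N) (c : Fin m → ℝ),
      (m : ℝ) ≤ 8 * q * n * (2 * (k : ℝ) - 1) ^ p * Real.log (2 * (n : ℝ) ^ 2) / δ ^ 2 + 1 ∧
      (∀ t, 0 ≤ c t) ∧
      ∀ i j, (1 - δ) * ∑ ω, |x i ω - x j ω| ^ p ≤
            ∑ t, |c t * x i (s t) - c t * x j (s t)| ^ p ∧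
          ∑ t, |c t * x i (s t) - c t * x j (s t)| ^ p ≤
            (1 + δ) * ∑ ω, |x i ω - x j ω| ^ p := by
  have hlog0 : 0 ≤ Real.log (2 * (n : ℝ) ^ 2) := by
    apply Real.log_nonneg
    have : (1 : ℝ) ≤ n := by exact_mod_cast hn
    nlinarith
  have hk1 : (1 : ℝ) ≤ k := by exact_mod_cast hk
  have hbase : 0 ≤ 8 * (q : ℝ) * n * (2 * (k : ℝ) - 1) ^ p * Real.log (2 * (n : ℝ) ^ 2) / δ ^ 2 := by
    have : 0 ≤ (2 * (k : ℝ) - 1) ^ p := Real.rpow_nonneg (by linarith) p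
    positivity
  rcases sensitivity p hp n k q hk hq N x with hall | ⟨g, R, hg0, hg1, hR, hRle, hsens⟩
  · refine ⟨0, Fin.elim0, Fin.elim0, ?_, fun t => t.elim0, ?_⟩
    · push_cast
      linarith
    · intro i j
      have hz : ∀ ω, |x i ω - x j ω| ^ p = 0 := by
        intro ω
        rw [hall i j ω, sub_self, abs_zero, Real.zero_rpow hp.ne']
      simp [hz]
  · obtain ⟨m, s, c, hm, hc0, hmain⟩ :=
      sample_embed p hp δ hδ0 hδ1 n N hn x g R hg0 hg1 hR hsens
    refine ⟨m, s, c, ?_, hc0, hmain⟩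
    have h1 : 4 * R * Real.log (2 * (n : ℝ) ^ 2) / δ ^ 2 ≤
        8 * q * n * (2 * (k : ℝ) - 1) ^ p * Real.log (2 * (n : ℝ) ^ 2) / δ ^ 2 := by
      apply div_le_div_of_nonneg_right _ (by positivity)
      have : 4 * R ≤ 8 * q * n * (2 * (k : ℝ) - 1) ^ p := by linarith
      exact mul_le_mul_of_nonneg_right this hlog0
    linarith

/-- **Polylogarithmic form.**  `49 * n * (2 * log₂ n + 1) ^ p * log n / δ ^ 2` rescaled
coordinates preserve all `p`-th powers of the pairwise `ℓ_p` distances up to `1 ± δ`. -/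
theorem polylog (p : ℝ) (hp : 0 < p) (δ : ℝ) (hδ0 : 0 < δ) (hδ1 : δ ≤ 1) (n : ℕ) (hn : 2 ≤ n)
    (N : ℕ) (x : Fin n → Fin N → ℝ) :
    ∃ (m : ℕ) (s : Fin m → Fin N) (c : Fin m → ℝ),
      (m : ℝ) ≤ 49 * n * (2 * Real.logb 2 n + 1) ^ p * Real.log n / δ ^ 2 ∧
      (∀ t, 0 ≤ c t) ∧
      ∀ i j, (1 - δ) * ∑ ω, |x i ω - x j ω| ^ p ≤
            ∑ t, |c t * x i (s t) - c t * x j (s t)| ^ p ∧
          ∑ t, |c t * x i (s t) - c t * x j (s t)| ^ p ≤
            (1 + δ) * ∑ ω, |x i ω - x j ω| ^ p := by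
  obtain ⟨m, s, c, hm, hc0, hmain⟩ := core p hp δ hδ0 hδ1 n (by omega) (Nat.log 2 n + 1) 2
    (by omega) (Nat.lt_pow_succ_log_self (by norm_num) n) N x
  refine ⟨m, s, c, ?_, hc0, hmain⟩
  have hn2 : (2 : ℝ) ≤ n := by exact_mod_cast hn
  have hlogn : Real.log 2 ≤ Real.log n := Real.log_le_log (by norm_num) hn2
  have hlog2 : (1 / 2 : ℝ) < Real.log 2 := by
    have := Real.log_two_gt_d9
    linarith
  have hnat : ((Nat.log 2 n : ℕ) : ℝ) ≤ Real.logb 2 n := by
    have := Real.natLog_le_logb n 2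
    simpa using this
  have hnat0 : (0 : ℝ) ≤ (Nat.log 2 n : ℕ) := Nat.cast_nonneg _
  set H : ℝ := 2 * Real.logb 2 n + 1 with hH
  have hH1 : 1 ≤ H := by rw [hH]; linarith
  have hbase : (2 * ((Nat.log 2 n + 1 : ℕ) : ℝ) - 1) ^ p ≤ H ^ p := by
    apply Real.rpow_le_rpow _ _ hp.le
    · push_cast
      linarith
    · push_cast
      rw [hH]
      linarith
  have hbase0 : 0 ≤ (2 * ((Nat.log 2 n + 1 : ℕ) : ℝ) - 1) ^ p := by
    apply Real.rpow_nonneg
    push_cast
    linarith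
  have hHp1 : 1 ≤ H ^ p := Real.one_le_rpow hH1 hp.le
  have hlog : Real.log (2 * (n : ℝ) ^ 2) ≤ 3 * Real.log n := by
    rw [Real.log_mul (by norm_num) (by positivity), Real.log_pow]
    push_cast
    linarith
  have hlog0 : 0 ≤ Real.log (2 * (n : ℝ) ^ 2) := by
    apply Real.log_nonneg
    nlinarith
  have hδ2 : 0 < δ ^ 2 := by positivity
  have hδ2le : δ ^ 2 ≤ 1 := by nlinarith
  -- the main term
  have h1 : 8 * ((2 : ℕ) : ℝ) * n * (2 * ((Nat.log 2 n + 1 : ℕ) : ℝ) - 1) ^ p *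
      Real.log (2 * (n : ℝ) ^ 2) / δ ^ 2 ≤ 48 * n * H ^ p * Real.log n / δ ^ 2 := by
    apply div_le_div_of_nonneg_right _ hδ2.le
    have hn0 : (0 : ℝ) ≤ n := by linarith
    have e1 : 8 * ((2 : ℕ) : ℝ) * n * (2 * ((Nat.log 2 n + 1 : ℕ) : ℝ) - 1) ^ p *
        Real.log (2 * (n : ℝ) ^ 2) ≤ 8 * ((2 : ℕ) : ℝ) * n * H ^ p *
        Real.log (2 * (n : ℝ) ^ 2) := by
      apply mul_le_mul_of_nonneg_right _ hlog0
      apply mul_le_mul_of_nonneg_left hbase
      push_cast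
      positivity
    have e2 : 8 * ((2 : ℕ) : ℝ) * n * H ^ p * Real.log (2 * (n : ℝ) ^ 2) ≤
        8 * ((2 : ℕ) : ℝ) * n * H ^ p * (3 * Real.log n) := by
      apply mul_le_mul_of_nonneg_left hlog
      push_cast
      positivity
    calc 8 * ((2 : ℕ) : ℝ) * n * (2 * ((Nat.log 2 n + 1 : ℕ) : ℝ) - 1) ^ p *
        Real.log (2 * (n : ℝ) ^ 2) ≤ 8 * ((2 : ℕ) : ℝ) * n * H ^ p * (3 * Real.log n) :=
          e1.trans e2
      _ = 48 * n * H ^ p * Real.log n := by push_cast; ring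
  have h2 : 1 ≤ n * H ^ p * Real.log n / δ ^ 2 := by
    rw [le_div_iff₀ hδ2]
    have h3 : (1 : ℝ) ≤ n * H ^ p * Real.log n := by
      have h4 : (2 : ℝ) * 1 * (1 / 2) ≤ n * H ^ p * Real.log n := by
        apply mul_le_mul (mul_le_mul hn2 hHp1 (by norm_num) (by linarith)) (by linarith)
          (by norm_num) (by positivity)
      linarith
    linarith
  have h5 : 49 * n * H ^ p * Real.log n / δ ^ 2 =
      48 * n * H ^ p * Real.log n / δ ^ 2 + n * H ^ p * Real.log n / δ ^ 2 := by ring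
  rw [h5]
  linarith

/-- **Distortion form.**  Every `n`-point subset of `ℓ_p^N` is mapped, by sampling and
rescaling coordinates, into `ℓ_p^m` with distortion at most `D` (no contraction, expansion at
most `D`), where `m ≤ 49 * ((D ^ p + 1) / (D ^ p - 1)) ^ 2 * n * (2 * log₂ n + 1) ^ p * log n`. -/
theorem distortion (p : ℝ) (hp : 0 < p) (D : ℝ) (hD : 1 < D) (n : ℕ) (hn : 2 ≤ n)
    (N : ℕ) (x : Fin n → Fin N → ℝ) :
    ∃ (m : ℕ) (s : Fin m → Fin N) (c : Fin m → ℝ),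
      (m : ℝ) ≤ 49 * ((D ^ p + 1) / (D ^ p - 1)) ^ 2 * n * (2 * Real.logb 2 n + 1) ^ p *
        Real.log n ∧
      (∀ t, 0 ≤ c t) ∧
      ∀ i j, (∑ ω, |x i ω - x j ω| ^ p) ^ (1 / p) ≤
            (∑ t, |c t * x i (s t) - c t * x j (s t)| ^ p) ^ (1 / p) ∧
          (∑ t, |c t * x i (s t) - c t * x j (s t)| ^ p) ^ (1 / p) ≤
            D * (∑ ω, |x i ω - x j ω| ^ p) ^ (1 / p) := by
  have hDp : 1 < D ^ p := Real.one_lt_rpow hD hp
  set δ : ℝ := (D ^ p - 1) / (D ^ p + 1) with hδ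
  have hδ0 : 0 < δ := div_pos (by linarith) (by linarith)
  have hδ1 : δ ≤ 1 := by
    rw [hδ, div_le_one (by linarith)]
    linarith
  have h1δ : 1 - δ = 2 / (D ^ p + 1) := by
    rw [hδ]
    field_simp
    ring
  have h1δ' : 1 + δ = 2 * D ^ p / (D ^ p + 1) := by
    rw [hδ]
    field_simp
    ring
  have h1δ0 : 0 < 1 - δ := by rw [h1δ]; positivity
  obtain ⟨m, s, c₀, hm, hc0, hmain⟩ := polylog p hp δ hδ0 hδ1 n hn N x
  set r : ℝ := (1 / (1 - δ)) ^ (1 / p) with hr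
  have hr0 : 0 ≤ r := Real.rpow_nonneg (by positivity) _
  have hrp : r ^ p = 1 / (1 - δ) := by
    rw [hr, one_div p]
    exact Real.rpow_inv_rpow (by positivity) hp.ne'
  refine ⟨m, s, fun t => r * c₀ t, ?_, fun t => mul_nonneg hr0 (hc0 t), ?_⟩
  · have : 49 * ((D ^ p + 1) / (D ^ p - 1)) ^ 2 * n * (2 * Real.logb 2 n + 1) ^ p *
        Real.log n = 49 * n * (2 * Real.logb 2 n + 1) ^ p * Real.log n / δ ^ 2 := by
      rw [hδ]
      have hne1 : D ^ p - 1 ≠ 0 := by linarith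
      have hne2 : D ^ p + 1 ≠ 0 := by linarith
      field_simp
    rw [this]
    exact hm
  · intro i j
    have hkey : ∀ t, |r * c₀ t * x i (s t) - r * c₀ t * x j (s t)| ^ p =
        1 / (1 - δ) * |c₀ t * x i (s t) - c₀ t * x j (s t)| ^ p := by
      intro t
      have : r * c₀ t * x i (s t) - r * c₀ t * x j (s t) =
          r * (c₀ t * x i (s t) - c₀ t * x j (s t)) := by ring
      rw [this, abs_mul, abs_of_nonneg hr0, Real.mul_rpow hr0 (abs_nonneg _), hrp]
    simp_rw [hkey]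
    rw [← Finset.mul_sum]
    obtain ⟨hlo, hhi⟩ := hmain i j
    set W : ℝ := ∑ ω, |x i ω - x j ω| ^ p with hW
    have hW0 : 0 ≤ W := Finset.sum_nonneg (fun ω _ => Real.rpow_nonneg (abs_nonneg _) p)
    set Z : ℝ := ∑ t, |c₀ t * x i (s t) - c₀ t * x j (s t)| ^ p with hZ
    have hZ0 : 0 ≤ Z := Finset.sum_nonneg (fun t _ => Real.rpow_nonneg (abs_nonneg _) p)
    have hlo' : W ≤ 1 / (1 - δ) * Z := by
      rw [one_div, ← div_eq_inv_mul, le_div_iff₀ h1δ0]
      linarith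
    have hhi' : 1 / (1 - δ) * Z ≤ D ^ p * W := by
      rw [one_div, ← div_eq_inv_mul, div_le_iff₀ h1δ0]
      have : D ^ p * W * (1 - δ) = (1 + δ) * W := by
        rw [h1δ, h1δ']
        field_simp
      rw [this]
      exact hhi
    have hinv : 0 ≤ 1 / p := by positivity
    constructor
    · exact Real.rpow_le_rpow hW0 hlo' hinv
    · have h3 := Real.rpow_le_rpow (by positivity) hhi' hinv
      have hD0 : 0 ≤ D := by linarith
      have h4 : (D ^ p * W) ^ (1 / p) = D * W ^ (1 / p) := by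
        rw [Real.mul_rpow (Real.rpow_nonneg hD0 p) hW0, one_div p,
          Real.rpow_rpow_inv hD0 hp.ne']
      rw [h4] at h3
      exact h3

end Vale.Agent.Lib.P249.Greedy.Main
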