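import Mathlib
import Vale.Agent.Lib.P249.Greedy.Spanner

/-!
# Simple paths in the greedy hop-spanner

A walk can be shortened to a path without repeated points; its edges are then pairwise
distinct, which allows a Hölder estimate along the path.
-/

namespace Vale.Agent.Lib.P249.Greedy.Spanner

variable {V : Type*} [DecidableEq V]

/-- `SPath A X a b`: a path from `a` to `b` along `A` without repeated points, whose set of
points is `X` -/
inductive SPath (A : V → V → Prop) : Finset V → V → V → Prop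
  | refl (a : V) : SPath A {a} a a
  | step (a c b : V) (X : Finset V) : A a c → a ∉ X → SPath A X c b → SPath A (insert a X) a b

theorem SPath.suffix {A : V → V → Prop} {X : Finset V} {c b : V} (h : SPath A X c b) {a : V}
    (ha : a ∈ X) : ∃ X', X' ⊆ X ∧ SPath A X' a b := by
  induction h with
  | refl c =>
    have : a = c := Finset.mem_singleton.mp ha
    subst this
    exact ⟨{a}, Finset.Subset.refl _, SPath.refl a⟩
  | step c c' b X₀ hcc' hc hp ih =>
    rcases Finset.mem_insert.mp ha with rfl | ha'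
    · exact ⟨insert a X₀, Finset.Subset.refl _, SPath.step a c' b X₀ hcc' hc hp⟩
    · obtain ⟨X', hX', h'⟩ := ih ha'
      exact ⟨X', hX'.trans (Finset.subset_insert _ _), h'⟩

theorem SPath.of_walk {A : V → V → Prop} {j : ℕ} {a b : V} (h : Walk A j a b) :
    ∃ X : Finset V, X.card ≤ j + 1 ∧ SPath A X a b := by
  induction h with
  | refl j a => exact ⟨{a}, by simp, SPath.refl a⟩
  | step j a c b hac _ ih =>
    obtain ⟨X, hX, hp⟩ := ih
    by_cases ha : a ∈ X
    · obtain ⟨X', hX', h'⟩ := hp.suffix ha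
      exact ⟨X', (Finset.card_le_card hX').trans (hX.trans (by omega)), h'⟩
    · refine ⟨insert a X, ?_, SPath.step a c b X hac ha hp⟩
      rw [Finset.card_insert_of_notMem ha]
      omega

/-- the edges of a path without repeated points are pairwise distinct -/
theorem SPath.edges {A : V → V → Prop} {E : Finset (V × V)} {w : V → V → ℝ} {t : ℝ}
    (hA : ∀ x y, A x y → (x, y) ∈ E ∧ w x y ≤ t) {X : Finset V} {a b : V}
    (h : SPath A X a b) :
    ∃ P : Finset (V × V), P ⊆ E ∧ P.card + 1 = X.card ∧ (∀ e ∈ P, e.1 ∈ X ∧ w e.1 e.2 ≤ t) ∧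
      ∀ φ : V → ℝ, |φ a - φ b| ≤ ∑ e ∈ P, |φ e.1 - φ e.2| := by
  induction h with
  | refl a =>
    refine ⟨∅, Finset.empty_subset _, by simp, by simp, ?_⟩
    intro φ
    simp
  | step a c b X hac ha hp ih =>
    obtain ⟨P, hPE, hPc, hPX, hPφ⟩ := ih
    have hnot : (a, c) ∉ P := fun hmem => ha (hPX (a, c) hmem).1
    refine ⟨insert (a, c) P, ?_, ?_, ?_, ?_⟩
    · intro e he
      rcases Finset.mem_insert.mp he with rfl | he'
      · exact (hA a c hac).1
      · exact hPE he'
    · rw [Finset.card_insert_of_notMem hnot, Finset.card_insert_of_notMem ha, hPc]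
    · intro e he
      rcases Finset.mem_insert.mp he with rfl | he'
      · exact ⟨Finset.mem_insert_self _ _, (hA a c hac).2⟩
      · exact ⟨Finset.mem_insert_of_mem (hPX e he').1, (hPX e he').2⟩
    · intro φ
      rw [Finset.sum_insert hnot]
      have h1 : |φ a - φ b| ≤ |φ a - φ c| + |φ c - φ b| := abs_sub_le _ _ _
      have h2 := hPφ φ
      linarith

/-- **Sparse hop-spanner, path form.**  Any two points are joined by at most `2 * k - 1`
pairwise distinct edges of `E`, each of weight at most `w u v`. -/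
theorem spanner_paths [Fintype V] (w : V → V → ℝ)
    (hws : ∀ a b, w a b = w b a) (k q : ℕ) (hk : 1 ≤ k) (hq : Fintype.card V < q ^ k) :
    ∃ E : Finset (V × V), E.card ≤ 2 * q * Fintype.card V ∧
      (∀ a b, (a, b) ∈ E → (b, a) ∈ E) ∧
      ∀ u v, ∃ P : Finset (V × V), P ⊆ E ∧ P.card ≤ 2 * k - 1 ∧
        (∀ e ∈ P, w e.1 e.2 ≤ w u v) ∧
        ∀ φ : V → ℝ, |φ u - φ v| ≤ ∑ e ∈ P, |φ e.1 - φ e.2| := by
  obtain ⟨E, hEs, hEi, -, hENC, hEW⟩ := greedy w hws k hk Finset.univ
  refine ⟨E, ?_, hEs, ?_⟩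
  · exact card_edges_le' (fun a b => (a, b) ∈ E) hEs (fun a h => hEi a a h rfl) k hENC q hq E
      (fun e he => he)
  · intro u v
    obtain ⟨X, hX, hp⟩ := SPath.of_walk (hEW (u, v) (Finset.mem_univ _))
    obtain ⟨P, hPE, hPc, hPX, hPφ⟩ := SPath.edges (E := E) (w := w) (t := w u v)
      (fun x y h => h) hp
    exact ⟨P, hPE, by omega, fun e he => (hPX e he).2, hPφ⟩

end Vale.Agent.Lib.P249.Greedy.Spanner
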