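import Mathlib
import Vale.Agent.Lib.P249.Greedy.Main
import Vale.Agent.Lib.P249.Greedy.Paths

/-!
# Near-linear dimension reduction in `ℓ_p`, sharper form

Along a path of the hop-spanner without repeated points the edges are pairwise distinct, so
the power mean inequality gives the factor `(2 * k - 1) ^ (p - 1)` instead of
`(2 * k - 1) ^ p` in the bound for the total pair sensitivity (`p ≥ 1`).
-/

namespace Vale.Agent.Lib.P249.Greedy.Sharp

open Finset

/-- **Sensitivity bound from a sparse hop-spanner, sharper form** (`p ≥ 1`). -/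
theorem sensitivity (p : ℝ) (hp1 : 1 ≤ p) (n : ℕ) (k q : ℕ) (hk : 1 ≤ k) (hq : n < q ^ k)
    (N : ℕ) (x : Fin n → Fin N → ℝ) :
    (∀ u v ω, x u ω = x v ω) ∨
    ∃ (g : Fin N → ℝ) (R : ℝ), (∀ ω, 0 ≤ g ω) ∧ ∑ ω, g ω = 1 ∧ 0 < R ∧
      R ≤ 2 * q * n * (2 * (k : ℝ) - 1) ^ (p - 1) ∧
      ∀ u v ω, |x u ω - x v ω| ^ p ≤ R * g ω * ∑ ω', |x u ω' - x v ω'| ^ p := by
  classical
  have hp : 0 < p := by linarith
  set Wt : Fin n → Fin n → ℝ := fun u v => ∑ ω, |x u ω - x v ω| ^ p with hWt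
  have hWt0 : ∀ u v, 0 ≤ Wt u v := fun u v =>
    Finset.sum_nonneg (fun ω _ => Real.rpow_nonneg (abs_nonneg _) p)
  have hterm0 : ∀ u v ω, 0 ≤ |x u ω - x v ω| ^ p := fun u v ω =>
    Real.rpow_nonneg (abs_nonneg _) p
  have hWts : ∀ u v, Wt u v = Wt v u := by
    intro u v
    apply Finset.sum_congr rfl
    intro ω _
    rw [abs_sub_comm]
  set w : Fin n → Fin n → ℝ := fun u v => Wt u v ^ (1 / p) with hw
  have hw0 : ∀ u v, 0 ≤ w u v := fun u v => Real.rpow_nonneg (hWt0 u v) _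
  have hws : ∀ u v, w u v = w v u := fun u v => by rw [hw]; simp only; rw [hWts u v]
  have hwp : ∀ u v, w u v ^ p = Wt u v := by
    intro u v
    rw [hw]
    simp only
    rw [one_div p]
    exact Real.rpow_inv_rpow (hWt0 u v) hp.ne'
  obtain ⟨E, hEcard, hEs, hE⟩ := Spanner.spanner_paths w hws k q hk (by simpa using hq)
  rw [Fintype.card_fin] at hEcard
  set h : ℝ := ((2 * k - 1 : ℕ) : ℝ) with hh
  have hhk : h = 2 * (k : ℝ) - 1 := by
    rw [hh, Nat.cast_sub (by omega)]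
    push_cast
    ring
  have hh1 : 1 ≤ h := by
    rw [hhk]
    have : (1 : ℝ) ≤ k := by exact_mod_cast hk
    linarith
  set E' : Finset (Fin n × Fin n) := E.filter (fun e => 0 < Wt e.1 e.2) with hE'
  rcases E'.eq_empty_or_nonempty with hemp | hne
  · left
    intro u v ω
    obtain ⟨P, hPE, -, -, hPφ⟩ := hE u v
    have h1 := hPφ (fun u => x u ω)
    have h2 : ∑ e ∈ P, |x e.1 ω - x e.2 ω| = 0 := by
      apply Finset.sum_eq_zero
      intro e he
      have hnot : ¬ 0 < Wt e.1 e.2 := by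
        intro hpos
        have : e ∈ E' := Finset.mem_filter.mpr ⟨hPE he, hpos⟩
        rw [hemp] at this
        exact absurd this (Finset.notMem_empty e)
      have hz : Wt e.1 e.2 = 0 := le_antisymm (not_lt.mp hnot) (hWt0 _ _)
      exact Main.terms_zero p hp (x e.1) (x e.2) hz ω
    rw [h2] at h1
    have h3 : |x u ω - x v ω| = 0 := le_antisymm h1 (abs_nonneg _)
    exact sub_eq_zero.mp (abs_eq_zero.mp h3)
  · right
    set M : ℝ := (E'.card : ℝ) with hM
    have hM0 : 0 < M := by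
      rw [hM]
      exact_mod_cast Finset.card_pos.mpr hne
    set f : Fin n × Fin n → Fin N → ℝ := fun e ω =>
      |x e.1 ω - x e.2 ω| ^ p / Wt e.1 e.2 with hf
    have hf0 : ∀ e ω, 0 ≤ f e ω := fun e ω => div_nonneg (hterm0 _ _ _) (hWt0 _ _)
    set g : Fin N → ℝ := fun ω => (∑ e ∈ E', f e ω) / M with hg
    have hMg : ∀ ω, M * g ω = ∑ e ∈ E', f e ω := by
      intro ω
      rw [hg]
      field_simp
    have hg0 : ∀ ω, 0 ≤ g ω := fun ω =>
      div_nonneg (Finset.sum_nonneg (fun e _ => hf0 e ω)) hM0.le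
    have hg1 : ∑ ω, g ω = 1 := by
      rw [hg]
      simp only
      rw [← Finset.sum_div, Finset.sum_comm]
      have h1 : ∀ e ∈ E', ∑ ω, f e ω = 1 := by
        intro e he
        have hpos : 0 < Wt e.1 e.2 := (Finset.mem_filter.mp he).2
        rw [hf]
        simp only
        rw [← Finset.sum_div]
        exact div_self hpos.ne'
      rw [Finset.sum_congr rfl h1, Finset.sum_const, nsmul_eq_mul, mul_one]
      exact div_self hM0.ne'
    have hh0 : 0 ≤ h := by linarith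
    have hp1' : 0 ≤ p - 1 := by linarith
    refine ⟨g, h ^ (p - 1) * M, hg0, hg1, by positivity, ?_, ?_⟩
    · have h1 : M ≤ 2 * q * n := by
        have h2 : E'.card ≤ E.card := Finset.card_le_card (Finset.filter_subset _ _)
        have h3 : E'.card ≤ 2 * q * n := h2.trans hEcard
        rw [hM]
        exact_mod_cast h3
      rw [← hhk]
      have h4 : 0 ≤ h ^ (p - 1) := by positivity
      nlinarith
    · intro u v ω
      obtain ⟨P, hPE, hPc, hPw, hPφ⟩ := hE u v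
      have h1 := hPφ (fun u => x u ω)
      -- each edge of the path
      have hedge : ∀ e ∈ P, |x e.1 ω - x e.2 ω| ≤ f e ω ^ (1 / p) * w u v := by
        intro e he
        by_cases hpos : 0 < Wt e.1 e.2
        · have h2 : |x e.1 ω - x e.2 ω| ^ p = f e ω * Wt e.1 e.2 := by
            rw [hf]
            simp only
            field_simp
          have h3 : |x e.1 ω - x e.2 ω| = f e ω ^ (1 / p) * w e.1 e.2 := by
            have h4 : (|x e.1 ω - x e.2 ω| ^ p) ^ (1 / p) = (f e ω * Wt e.1 e.2) ^ (1 / p) := by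
              rw [h2]
            rw [one_div p, Real.rpow_rpow_inv (abs_nonneg _) hp.ne',
              Real.mul_rpow (hf0 e ω) (hWt0 _ _)] at h4
            rw [h4, hw]
            simp only
            rw [one_div p]
          rw [h3]
          exact mul_le_mul_of_nonneg_left (hPw e he) (Real.rpow_nonneg (hf0 e ω) _)
        · have hz : Wt e.1 e.2 = 0 := le_antisymm (not_lt.mp hpos) (hWt0 _ _)
          rw [Main.terms_zero p hp (x e.1) (x e.2) hz ω]
          exact mul_nonneg (Real.rpow_nonneg (hf0 e ω) _) (hw0 _ _)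
      have h2 : |x u ω - x v ω| ≤ (∑ e ∈ P, f e ω ^ (1 / p)) * w u v := by
        rw [Finset.sum_mul]
        exact h1.trans (Finset.sum_le_sum hedge)
      have hsum0 : 0 ≤ ∑ e ∈ P, f e ω ^ (1 / p) :=
        Finset.sum_nonneg (fun e _ => Real.rpow_nonneg (hf0 e ω) _)
      have h3 : |x u ω - x v ω| ^ p ≤ ((∑ e ∈ P, f e ω ^ (1 / p)) * w u v) ^ p :=
        Real.rpow_le_rpow (abs_nonneg _) h2 hp.le
      rw [Real.mul_rpow hsum0 (hw0 u v), hwp] at h3
      -- power mean inequality along the path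
      have h4 : (∑ e ∈ P, f e ω ^ (1 / p)) ^ p ≤
          (P.card : ℝ) ^ (p - 1) * ∑ e ∈ P, (f e ω ^ (1 / p)) ^ p :=
        Real.rpow_sum_le_const_mul_sum_rpow_of_nonneg P hp1
          (fun e _ => Real.rpow_nonneg (hf0 e ω) _)
      have h5 : ∀ e ∈ P, (f e ω ^ (1 / p)) ^ p = f e ω := by
        intro e _
        rw [one_div p]
        exact Real.rpow_inv_rpow (hf0 e ω) hp.ne'
      rw [Finset.sum_congr rfl h5] at h4
      have h6 : (P.card : ℝ) ^ (p - 1) ≤ h ^ (p - 1) := by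
        apply Real.rpow_le_rpow (Nat.cast_nonneg _) _ hp1'
        rw [hh]
        exact_mod_cast hPc
      have h7 : ∑ e ∈ P, f e ω ≤ ∑ e ∈ E', f e ω := by
        have h8 : ∑ e ∈ P, f e ω ≤ ∑ e ∈ E, f e ω :=
          Finset.sum_le_sum_of_subset_of_nonneg hPE (fun e _ _ => hf0 e ω)
        have h9 : ∑ e ∈ E', f e ω = ∑ e ∈ E, f e ω := by
          rw [hE']
          apply Finset.sum_filter_of_ne
          intro e _ hne0
          by_contra hnot
          have hz : Wt e.1 e.2 = 0 := le_antisymm (not_lt.mp hnot) (hWt0 _ _)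
          apply hne0
          rw [hf]
          simp only
          rw [hz, div_zero]
        rw [h9]
        exact h8
      have hP0 : 0 ≤ ∑ e ∈ P, f e ω := Finset.sum_nonneg (fun e _ => hf0 e ω)
      have hPc0 : 0 ≤ (P.card : ℝ) ^ (p - 1) := Real.rpow_nonneg (Nat.cast_nonneg _) _
      have hW0 := hWt0 u v
      calc |x u ω - x v ω| ^ p ≤ (∑ e ∈ P, f e ω ^ (1 / p)) ^ p * Wt u v := h3
        _ ≤ ((P.card : ℝ) ^ (p - 1) * ∑ e ∈ P, f e ω) * Wt u v :=
            mul_le_mul_of_nonneg_right h4 hW0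
        _ ≤ (h ^ (p - 1) * ∑ e ∈ E', f e ω) * Wt u v := by
            apply mul_le_mul_of_nonneg_right _ hW0
            exact mul_le_mul h6 h7 hP0 (by positivity)
        _ = h ^ (p - 1) * M * g ω * ∑ ω', |x u ω' - x v ω'| ^ p := by
            rw [← hMg ω]
            ring

/-- **Core theorem, sharper form** (general trade-off, `p ≥ 1`). -/
theorem core (p : ℝ) (hp1 : 1 ≤ p) (δ : ℝ) (hδ0 : 0 < δ) (hδ1 : δ ≤ 1) (n : ℕ) (hn : 1 ≤ n)
    (k q : ℕ) (hk : 1 ≤ k) (hq : n < q ^ k) (N : ℕ) (x : Fin n → Fin N → ℝ) :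
    ∃ (m : ℕ) (s : Fin m → Fin N) (c : Fin m → ℝ),
      (m : ℝ) ≤ 8 * q * n * (2 * (k : ℝ) - 1) ^ (p - 1) * Real.log (2 * (n : ℝ) ^ 2) / δ ^ 2
        + 1 ∧
      (∀ t, 0 ≤ c t) ∧
      ∀ i j, (1 - δ) * ∑ ω, |x i ω - x j ω| ^ p ≤
            ∑ t, |c t * x i (s t) - c t * x j (s t)| ^ p ∧
          ∑ t, |c t * x i (s t) - c t * x j (s t)| ^ p ≤
            (1 + δ) * ∑ ω, |x i ω - x j ω| ^ p := by
  have hp : 0 < p := by linarith
  have hlog0 : 0 ≤ Real.log (2 * (n : ℝ) ^ 2) := by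
    apply Real.log_nonneg
    have : (1 : ℝ) ≤ n := by exact_mod_cast hn
    nlinarith
  have hk1 : (1 : ℝ) ≤ k := by exact_mod_cast hk
  have hbase : 0 ≤ 8 * (q : ℝ) * n * (2 * (k : ℝ) - 1) ^ (p - 1) *
      Real.log (2 * (n : ℝ) ^ 2) / δ ^ 2 := by
    have : 0 ≤ (2 * (k : ℝ) - 1) ^ (p - 1) := Real.rpow_nonneg (by linarith) _
    positivity
  rcases sensitivity p hp1 n k q hk hq N x with hall | ⟨g, R, hg0, hg1, hR, hRle, hsens⟩
  · refine ⟨0, Fin.elim0, Fin.elim0, ?_, fun t => t.elim0, ?_⟩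
    · push_cast
      linarith
    · intro i j
      have hz : ∀ ω, |x i ω - x j ω| ^ p = 0 := by
        intro ω
        rw [hall i j ω, sub_self, abs_zero, Real.zero_rpow hp.ne']
      simp [hz]
  · obtain ⟨m, s, c, hm, hc0, hmain⟩ :=
      Main.sample_embed p hp δ hδ0 hδ1 n N hn x g R hg0 hg1 hR hsens
    refine ⟨m, s, c, ?_, hc0, hmain⟩
    have h1 : 4 * R * Real.log (2 * (n : ℝ) ^ 2) / δ ^ 2 ≤
        8 * q * n * (2 * (k : ℝ) - 1) ^ (p - 1) * Real.log (2 * (n : ℝ) ^ 2) / δ ^ 2 := by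
      apply div_le_div_of_nonneg_right _ (by positivity)
      have : 4 * R ≤ 8 * q * n * (2 * (k : ℝ) - 1) ^ (p - 1) := by linarith
      exact mul_le_mul_of_nonneg_right this hlog0
    linarith

/-- **Polylogarithmic form, sharper.**  `49 * n * (2 * log₂ n + 1) ^ (p - 1) * log n / δ ^ 2`
rescaled coordinates preserve all `p`-th powers of the pairwise `ℓ_p` distances up to
`1 ± δ` (`p ≥ 1`). -/
theorem polylog (p : ℝ) (hp1 : 1 ≤ p) (δ : ℝ) (hδ0 : 0 < δ) (hδ1 : δ ≤ 1) (n : ℕ)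
    (hn : 2 ≤ n) (N : ℕ) (x : Fin n → Fin N → ℝ) :
    ∃ (m : ℕ) (s : Fin m → Fin N) (c : Fin m → ℝ),
      (m : ℝ) ≤ 49 * n * (2 * Real.logb 2 n + 1) ^ (p - 1) * Real.log n / δ ^ 2 ∧
      (∀ t, 0 ≤ c t) ∧
      ∀ i j, (1 - δ) * ∑ ω, |x i ω - x j ω| ^ p ≤
            ∑ t, |c t * x i (s t) - c t * x j (s t)| ^ p ∧
          ∑ t, |c t * x i (s t) - c t * x j (s t)| ^ p ≤
            (1 + δ) * ∑ ω, |x i ω - x j ω| ^ p := by
  obtain ⟨m, s, c, hm, hc0, hmain⟩ := core p hp1 δ hδ0 hδ1 n (by omega) (Nat.log 2 n + 1) 2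
    (by omega) (Nat.lt_pow_succ_log_self (by norm_num) n) N x
  refine ⟨m, s, c, ?_, hc0, hmain⟩
  have hp1' : 0 ≤ p - 1 := by linarith
  have hn2 : (2 : ℝ) ≤ n := by exact_mod_cast hn
  have hlogn : Real.log 2 ≤ Real.log n := Real.log_le_log (by norm_num) hn2
  have hlog2 : (1 / 2 : ℝ) < Real.log 2 := by
    have := Real.log_two_gt_d9
    linarith
  have hnat : ((Nat.log 2 n : ℕ) : ℝ) ≤ Real.logb 2 n := by
    have := Real.natLog_le_logb n 2
    simpa using this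
  have hnat0 : (0 : ℝ) ≤ (Nat.log 2 n : ℕ) := Nat.cast_nonneg _
  set H : ℝ := 2 * Real.logb 2 n + 1 with hH
  have hH1 : 1 ≤ H := by rw [hH]; linarith
  have hbase : (2 * ((Nat.log 2 n + 1 : ℕ) : ℝ) - 1) ^ (p - 1) ≤ H ^ (p - 1) := by
    apply Real.rpow_le_rpow _ _ hp1'
    · push_cast
      linarith
    · push_cast
      rw [hH]
      linarith
  have hbase0 : 0 ≤ (2 * ((Nat.log 2 n + 1 : ℕ) : ℝ) - 1) ^ (p - 1) := by
    apply Real.rpow_nonneg
    push_cast
    linarith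
  have hHp1 : 1 ≤ H ^ (p - 1) := Real.one_le_rpow hH1 hp1'
  have hlog : Real.log (2 * (n : ℝ) ^ 2) ≤ 3 * Real.log n := by
    rw [Real.log_mul (by norm_num) (by positivity), Real.log_pow]
    push_cast
    linarith
  have hlog0 : 0 ≤ Real.log (2 * (n : ℝ) ^ 2) := by
    apply Real.log_nonneg
    nlinarith
  have hδ2 : 0 < δ ^ 2 := by positivity
  have hδ2le : δ ^ 2 ≤ 1 := by nlinarith
  have h1 : 8 * ((2 : ℕ) : ℝ) * n * (2 * ((Nat.log 2 n + 1 : ℕ) : ℝ) - 1) ^ (p - 1) *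
      Real.log (2 * (n : ℝ) ^ 2) / δ ^ 2 ≤ 48 * n * H ^ (p - 1) * Real.log n / δ ^ 2 := by
    apply div_le_div_of_nonneg_right _ hδ2.le
    have hn0 : (0 : ℝ) ≤ n := by linarith
    have e1 : 8 * ((2 : ℕ) : ℝ) * n * (2 * ((Nat.log 2 n + 1 : ℕ) : ℝ) - 1) ^ (p - 1) *
        Real.log (2 * (n : ℝ) ^ 2) ≤ 8 * ((2 : ℕ) : ℝ) * n * H ^ (p - 1) *
        Real.log (2 * (n : ℝ) ^ 2) := by
      apply mul_le_mul_of_nonneg_right _ hlog0
      apply mul_le_mul_of_nonneg_left hbase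
      push_cast
      positivity
    have e2 : 8 * ((2 : ℕ) : ℝ) * n * H ^ (p - 1) * Real.log (2 * (n : ℝ) ^ 2) ≤
        8 * ((2 : ℕ) : ℝ) * n * H ^ (p - 1) * (3 * Real.log n) := by
      apply mul_le_mul_of_nonneg_left hlog
      push_cast
      positivity
    calc 8 * ((2 : ℕ) : ℝ) * n * (2 * ((Nat.log 2 n + 1 : ℕ) : ℝ) - 1) ^ (p - 1) *
        Real.log (2 * (n : ℝ) ^ 2) ≤ 8 * ((2 : ℕ) : ℝ) * n * H ^ (p - 1) * (3 * Real.log n) :=
          e1.trans e2
      _ = 48 * n * H ^ (p - 1) * Real.log n := by push_cast; ring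
  have h2 : 1 ≤ n * H ^ (p - 1) * Real.log n / δ ^ 2 := by
    rw [le_div_iff₀ hδ2]
    have h3 : (1 : ℝ) ≤ n * H ^ (p - 1) * Real.log n := by
      have h4 : (2 : ℝ) * 1 * (1 / 2) ≤ n * H ^ (p - 1) * Real.log n := by
        apply mul_le_mul (mul_le_mul hn2 hHp1 (by norm_num) (by linarith)) (by linarith)
          (by norm_num) (by positivity)
      linarith
    linarith
  have h5 : 49 * n * H ^ (p - 1) * Real.log n / δ ^ 2 =
      48 * n * H ^ (p - 1) * Real.log n / δ ^ 2 + n * H ^ (p - 1) * Real.log n / δ ^ 2 := by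
    ring
  rw [h5]
  linarith

/-- **Distortion form, sharper.**  Every `n`-point subset of `ℓ_p^N` (`p ≥ 1`) is mapped, by
sampling and rescaling coordinates, into `ℓ_p^m` with distortion at most `D`, where
`m ≤ 49 * ((D ^ p + 1) / (D ^ p - 1)) ^ 2 * n * (2 * log₂ n + 1) ^ (p - 1) * log n`. -/
theorem distortion (p : ℝ) (hp1 : 1 ≤ p) (D : ℝ) (hD : 1 < D) (n : ℕ) (hn : 2 ≤ n)
    (N : ℕ) (x : Fin n → Fin N → ℝ) :
    ∃ (m : ℕ) (s : Fin m → Fin N) (c : Fin m → ℝ),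
      (m : ℝ) ≤ 49 * ((D ^ p + 1) / (D ^ p - 1)) ^ 2 * n *
        (2 * Real.logb 2 n + 1) ^ (p - 1) * Real.log n ∧
      (∀ t, 0 ≤ c t) ∧
      ∀ i j, (∑ ω, |x i ω - x j ω| ^ p) ^ (1 / p) ≤
            (∑ t, |c t * x i (s t) - c t * x j (s t)| ^ p) ^ (1 / p) ∧
          (∑ t, |c t * x i (s t) - c t * x j (s t)| ^ p) ^ (1 / p) ≤
            D * (∑ ω, |x i ω - x j ω| ^ p) ^ (1 / p) := by
  have hp : 0 < p := by linarith
  have hDp : 1 < D ^ p := Real.one_lt_rpow hD hp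
  set δ : ℝ := (D ^ p - 1) / (D ^ p + 1) with hδ
  have hδ0 : 0 < δ := div_pos (by linarith) (by linarith)
  have hδ1 : δ ≤ 1 := by
    rw [hδ, div_le_one (by linarith)]
    linarith
  have h1δ : 1 - δ = 2 / (D ^ p + 1) := by
    rw [hδ]
    field_simp
    ring
  have h1δ' : 1 + δ = 2 * D ^ p / (D ^ p + 1) := by
    rw [hδ]
    field_simp
    ring
  have h1δ0 : 0 < 1 - δ := by rw [h1δ]; positivity
  obtain ⟨m, s, c₀, hm, hc0, hmain⟩ := polylog p hp1 δ hδ0 hδ1 n hn N x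
  set r : ℝ := (1 / (1 - δ)) ^ (1 / p) with hr
  have hr0 : 0 ≤ r := Real.rpow_nonneg (by positivity) _
  have hrp : r ^ p = 1 / (1 - δ) := by
    rw [hr, one_div p]
    exact Real.rpow_inv_rpow (by positivity) hp.ne'
  refine ⟨m, s, fun t => r * c₀ t, ?_, fun t => mul_nonneg hr0 (hc0 t), ?_⟩
  · have : 49 * ((D ^ p + 1) / (D ^ p - 1)) ^ 2 * n * (2 * Real.logb 2 n + 1) ^ (p - 1) *
        Real.log n = 49 * n * (2 * Real.logb 2 n + 1) ^ (p - 1) * Real.log n / δ ^ 2 := by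
      rw [hδ]
      have hne1 : D ^ p - 1 ≠ 0 := by linarith
      have hne2 : D ^ p + 1 ≠ 0 := by linarith
      field_simp
    rw [this]
    exact hm
  · intro i j
    have hkey : ∀ t, |r * c₀ t * x i (s t) - r * c₀ t * x j (s t)| ^ p =
        1 / (1 - δ) * |c₀ t * x i (s t) - c₀ t * x j (s t)| ^ p := by
      intro t
      have : r * c₀ t * x i (s t) - r * c₀ t * x j (s t) =
          r * (c₀ t * x i (s t) - c₀ t * x j (s t)) := by ring
      rw [this, abs_mul, abs_of_nonneg hr0, Real.mul_rpow hr0 (abs_nonneg _), hrp]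
    simp_rw [hkey]
    rw [← Finset.mul_sum]
    obtain ⟨hlo, hhi⟩ := hmain i j
    set W : ℝ := ∑ ω, |x i ω - x j ω| ^ p with hW
    have hW0 : 0 ≤ W := Finset.sum_nonneg (fun ω _ => Real.rpow_nonneg (abs_nonneg _) p)
    set Z : ℝ := ∑ t, |c₀ t * x i (s t) - c₀ t * x j (s t)| ^ p with hZ
    have hZ0 : 0 ≤ Z := Finset.sum_nonneg (fun t _ => Real.rpow_nonneg (abs_nonneg _) p)
    have hlo' : W ≤ 1 / (1 - δ) * Z := by
      rw [one_div, ← div_eq_inv_mul, le_div_iff₀ h1δ0]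
      linarith
    have hhi' : 1 / (1 - δ) * Z ≤ D ^ p * W := by
      rw [one_div, ← div_eq_inv_mul, div_le_iff₀ h1δ0]
      have : D ^ p * W * (1 - δ) = (1 + δ) * W := by
        rw [h1δ, h1δ']
        field_simp
      rw [this]
      exact hhi
    have hinv : 0 ≤ 1 / p := by positivity
    constructor
    · exact Real.rpow_le_rpow hW0 hlo' hinv
    · have h3 := Real.rpow_le_rpow (by positivity) hhi' hinv
      have hD0 : 0 ≤ D := by linarith
      have h4 : (D ^ p * W) ^ (1 / p) = D * W ^ (1 / p) := by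
        rw [Real.mul_rpow (Real.rpow_nonneg hD0 p) hW0, one_div p,
          Real.rpow_rpow_inv hD0 hp.ne']
      rw [h4] at h3
      exact h3

end Vale.Agent.Lib.P249.Greedy.Sharp
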